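import Mathlib.Analysis.Calculus.Deriv.MeanValue
import Mathlib.Analysis.Calculus.Deriv.Inv
import Mathlib.Analysis.SpecialFunctions.ExpDeriv
import Mathlib.Analysis.SpecialFunctions.Sqrt
import Mathlib.Analysis.SpecialFunctions.Pow.Real

/-!
# P216BF: point picking and one dimensional comparison lemmas
-/

open Set Filter
open scoped Topology

namespace Vale.Agent.P216BF

/-- Point picking.  `P` = admissible points, `N z w` = `w` lies in the neighbourhood of `z`. -/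
theorem pick {X : Type} {P : X → Prop} {Q : X → ℝ} {N : X → X → Prop} {c B : ℝ} (hc : 1 < c)
    {y : X} (hy : P y) (hQ : 0 < Q y) (hB : ∀ z, P z → Q z ≤ B)
    (h : ∀ z w, P z → Q y ≤ Q z → N z w → c * Q z < Q w → P w) :
    ∃ z, P z ∧ Q y ≤ Q z ∧ ∀ w, N z w → Q w ≤ c * Q z := by
  set S : Set ℝ := Q '' {z | P z ∧ Q y ≤ Q z} with hS
  have hne : S.Nonempty := ⟨_, y, ⟨hy, le_rfl⟩, rfl⟩
  have hbd : BddAbove S := ⟨B, by rintro _ ⟨z, hz, rfl⟩; exact hB z hz.1⟩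
  have h0 : Q y ≤ sSup S := le_csSup hbd ⟨y, ⟨hy, le_rfl⟩, rfl⟩
  have h1 : sSup S / c < sSup S := div_lt_self (hQ.trans_le h0) hc
  obtain ⟨_, ⟨z, hz, rfl⟩, hlt⟩ := exists_lt_of_lt_csSup hne h1
  refine ⟨z, hz.1, hz.2, fun w hw => ?_⟩
  by_contra hcon
  push Not at hcon
  have h2 : Q y ≤ Q w := by nlinarith [hz.2]
  have h3 : Q w ≤ sSup S := le_csSup hbd ⟨w, ⟨h z w hz.1 hz.2 hw hcon, h2⟩, rfl⟩
  rw [div_lt_iff₀ (by linarith)] at hlt
  nlinarith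

theorem half_scale {A a b : ℝ} (hA : 0 ≤ A) (ha : 0 < a) (h : 4 * a ≤ b) :
    2 * (A / √b) ≤ A / √a := by
  have h1 : 2 * √a ≤ √b := by
    rw [show (2 : ℝ) = √4 by rw [show (4 : ℝ) = 2 ^ 2 by norm_num, Real.sqrt_sq (by norm_num)],
      ← Real.sqrt_mul (by norm_num)]
    exact Real.sqrt_le_sqrt h
  have h2 : 0 < √a := Real.sqrt_pos.2 ha
  rw [← mul_div_assoc, div_le_div_iff₀ (by linarith) h2]
  nlinarith

/-- Point picking in space: `d` is any function with the triangle inequality from `y`. -/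
theorem pick_space {X : Type} {d : X → X → ℝ} {Q : X → ℝ} {S : Set X} {A B : ℝ} {y : X}
    (hy : y ∈ S) (hyy : d y y ≤ 0) (htri : ∀ z ∈ S, ∀ w ∈ S, d y w ≤ d y z + d z w) (hA : 0 ≤ A)
    (hQ : 0 < Q y) (hB : ∀ z ∈ S, d y z ≤ 2 * (A / √(Q y)) → Q z ≤ B) :
    ∃ z ∈ S, d y z + 2 * (A / √(Q z)) ≤ 2 * (A / √(Q y)) ∧ Q y ≤ Q z ∧
      ∀ w ∈ S, d z w ≤ A / √(Q z) → Q w ≤ 4 * Q z := by
  obtain ⟨z, hz, h1, h2⟩ := pick (X := X) (Q := Q) (c := 4) (B := B) (y := y)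
    (P := fun z => z ∈ S ∧ d y z + 2 * (A / √(Q z)) ≤ 2 * (A / √(Q y)))
    (N := fun z w => w ∈ S ∧ d z w ≤ A / √(Q z)) (by norm_num) ⟨hy, by linarith⟩ hQ
    (fun z hz => hB z hz.1 (by
      have : 0 ≤ A / √(Q z) := div_nonneg hA (Real.sqrt_nonneg _)
      linarith [hz.2]))
    (fun z w hz hq hw hlt => ⟨hw.1, by
      have h3 := half_scale hA (hQ.trans_le hq) hlt.le
      have h4 := htri z hz.1 w hw.1
      linarith [hz.2, hw.2]⟩)
  exact ⟨z, hz.1, hz.2, h1, fun w hw hd => h2 w ⟨hw, hd⟩⟩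

/-- mean value inequality with a primitive as bound -/
theorem sub_le_of_deriv_le {ψ L ψ' k : ℝ → ℝ} {a b : ℝ} (hab : a ≤ b)
    (hψ : ContinuousOn ψ (Icc a b)) (hL : ContinuousOn L (Icc a b))
    (h : ∀ t ∈ Ioo a b, HasDerivAt ψ (ψ' t) t ∧ HasDerivAt L (k t) t ∧ ψ' t ≤ k t) :
    ψ b - ψ a ≤ L b - L a := by
  have hm : AntitoneOn (fun t => ψ t - L t) (Icc a b) :=
    antitoneOn_of_hasDerivWithinAt_nonpos (f' := fun t => ψ' t - k t) (convex_Icc a b) (hψ.sub hL)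
      (fun t ht => by
        rw [interior_Icc] at ht ⊢
        exact ((h t ht).1.sub (h t ht).2.1).hasDerivWithinAt)
      (fun t ht => by
        rw [interior_Icc] at ht
        linarith [(h t ht).2.2])
  have := hm (left_mem_Icc.2 hab) (right_mem_Icc.2 hab) hab
  simp only at this
  linarith

/-- a function that is capped at the level `m` and has bounded derivative below that level -/
theorem trunc_sub_le {ψ L ψ' k : ℝ → ℝ} {a b m : ℝ} (hab : a ≤ b)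
    (hψ : ContinuousOn ψ (Icc a b)) (hL : ContinuousOn L (Icc a b)) (hLm : MonotoneOn L (Icc a b))
    (hm : ψ b ≤ m)
    (h : ∀ t ∈ Ioo a b, ψ t < m →
      HasDerivAt ψ (ψ' t) t ∧ HasDerivAt L (k t) t ∧ ψ' t ≤ k t) :
    ψ b - ψ a ≤ L b - L a := by
  by_cases hZ : (Icc a b ∩ ψ ⁻¹' Ici m).Nonempty
  · have hc : IsClosed (Icc a b ∩ ψ ⁻¹' Ici m) :=
      hψ.preimage_isClosed_of_isClosed isClosed_Icc isClosed_Ici
    have hb : BddBelow (Icc a b ∩ ψ ⁻¹' Ici m) := ⟨a, fun t ht => ht.1.1⟩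
    have hs := hc.csInf_mem hZ hb
    set s := sInf (Icc a b ∩ ψ ⁻¹' Ici m) with hsd
    have hsub : Icc a s ⊆ Icc a b := Icc_subset_Icc_right hs.1.2
    have h1 := sub_le_of_deriv_le (ψ' := ψ') (k := k) hs.1.1 (hψ.mono hsub) (hL.mono hsub)
      (fun t ht => h t ⟨ht.1, ht.2.trans_le hs.1.2⟩ (by
        by_contra hcon
        exact absurd (csInf_le hb ⟨⟨ht.1.le, ht.2.le.trans hs.1.2⟩, not_lt.1 hcon⟩)
          (not_le.2 ht.2)))
    have h2 := hLm hs.1 (right_mem_Icc.2 hab) hs.1.2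
    have h3 : m ≤ ψ s := hs.2
    linarith
  · exact sub_le_of_deriv_le hab hψ hL fun t ht => h t ht (by
      by_contra hcon
      exact hZ ⟨t, Ioo_subset_Icc_self ht, not_lt.1 hcon⟩)

theorem trunc_sub_le' {ψ L ψ' k : ℝ → ℝ} {a b m : ℝ} (hab : a ≤ b)
    (hψ : ContinuousOn ψ (Icc a b)) (hL : ContinuousOn L (Icc a b)) (hLm : MonotoneOn L (Icc a b))
    (hm : ψ a ≤ m)
    (h : ∀ t ∈ Ioo a b, ψ t < m →
      HasDerivAt ψ (ψ' t) t ∧ HasDerivAt L (k t) t ∧ -ψ' t ≤ k t) :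
    ψ a - ψ b ≤ L b - L a := by
  have hmap : MapsTo (fun t : ℝ => -t) (Icc (-b) (-a)) (Icc a b) := fun t ht =>
    ⟨by linarith [ht.2], by linarith [ht.1]⟩
  have := trunc_sub_le (ψ := fun t => ψ (-t)) (L := fun t => -L (-t)) (ψ' := fun t => -ψ' (-t))
    (k := fun t => k (-t)) (m := m) (neg_le_neg hab) (hψ.comp continuousOn_id.neg hmap)
    (hL.comp continuousOn_id.neg hmap).neg
    (fun s hs t ht hst => neg_le_neg (hLm (hmap ht) (hmap hs) (neg_le_neg hst)))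
    (by simpa using hm) (fun t ht hlt => by
      obtain ⟨h1, h2, h3⟩ := h (-t) ⟨by linarith [ht.2], by linarith [ht.1]⟩ hlt
      refine ⟨?_, ?_, h3⟩
      · exact (h1.comp t (hasDerivAt_neg t)).congr_deriv (by ring)
      · exact (h2.comp t (hasDerivAt_neg t)).neg.congr_deriv (by ring))
  simp only [neg_neg] at this
  linarith

/-- `|φ'| ≤ C φ ^ 2` above the level `q` makes `1 / max φ q` Lipschitz -/
theorem inv_max_lip {φ φ' : ℝ → ℝ} {a b q C : ℝ} (hq : 0 < q) (hC : 0 ≤ C)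
    (hφ : ContinuousOn φ (Icc a b))
    (h : ∀ t ∈ Ioo a b, q < φ t → HasDerivAt φ (φ' t) t ∧ |φ' t| ≤ C * φ t ^ 2)
    {s t : ℝ} (hs : s ∈ Icc a b) (ht : t ∈ Icc a b) :
    |(max (φ s) q)⁻¹ - (max (φ t) q)⁻¹| ≤ C * |s - t| := by
  wlog hst : s ≤ t generalizing s t
  · rw [abs_sub_comm, abs_sub_comm s]
    exact this ht hs (not_le.1 hst).le
  have hsub : Icc s t ⊆ Icc a b := Icc_subset_Icc hs.1 ht.2
  have hpos : ∀ u, 0 < max (φ u) q := fun u => hq.trans_le (le_max_right _ _)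
  have hc : ContinuousOn (fun u => (max (φ u) q)⁻¹) (Icc s t) :=
    ((hφ.mono hsub).sup continuousOn_const).inv₀ fun u _ => (hpos u).ne'
  have hle : ∀ u, (max (φ u) q)⁻¹ ≤ q⁻¹ := fun u => inv_anti₀ hq (le_max_right _ _)
  have hL : ContinuousOn (fun u : ℝ => C * u) (Icc s t) := by fun_prop
  have hLm : MonotoneOn (fun u : ℝ => C * u) (Icc s t) := fun u _ v _ huv =>
    mul_le_mul_of_nonneg_left huv hC
  have key : ∀ u ∈ Ioo s t, (max (φ u) q)⁻¹ < q⁻¹ →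
      HasDerivAt (fun u => (max (φ u) q)⁻¹) (-φ' u / φ u ^ 2) u ∧
      HasDerivAt (fun u : ℝ => C * u) C u ∧ |-φ' u / φ u ^ 2| ≤ C := by
    intro u hu hlt
    have h1 : q < φ u := by
      by_contra hcon
      rw [max_eq_right (not_lt.1 hcon)] at hlt
      exact lt_irrefl _ hlt
    obtain ⟨h2, h3⟩ := h u ⟨hs.1.trans_lt hu.1, hu.2.trans_le ht.2⟩ h1
    have h4 : 0 < φ u := hq.trans h1
    refine ⟨(h2.inv h4.ne').congr_of_eventuallyEq ?_, by simpa using (hasDerivAt_id u).const_mul C,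
      ?_⟩
    · filter_upwards [h2.continuousAt.eventually (lt_mem_nhds h1)] with v hv
      simp [max_eq_left hv.le]
    · rw [abs_div, abs_neg, abs_of_pos (pow_pos h4 2), div_le_iff₀ (pow_pos h4 2)]
      exact h3
  have e1 := trunc_sub_le (k := fun _ => C) hst hc hL hLm (hle t) fun u hu hlt =>
    ⟨(key u hu hlt).1, (key u hu hlt).2.1, (le_abs_self _).trans (key u hu hlt).2.2⟩
  have e2 := trunc_sub_le' (k := fun _ => C) hst hc hL hLm (hle s) fun u hu hlt =>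
    ⟨(key u hu hlt).1, (key u hu hlt).2.1, (neg_le_abs _).trans (key u hu hlt).2.2⟩
  rw [abs_of_nonpos (sub_nonpos.2 hst), abs_le]
  constructor <;> linarith

/-- doubling time, upper bound -/
theorem le_two_mul_of_lip {x y q Q δ : ℝ} (hq : 0 < q) (hqQ : q ≤ Q) (hx : x ≤ Q)
    (h : |(max x q)⁻¹ - (max y q)⁻¹| ≤ δ) (hδ : δ * Q ≤ 1 / 2) : y ≤ 2 * Q := by
  have hQ : 0 < Q := hq.trans_le hqQ
  have h1 : Q⁻¹ ≤ (max x q)⁻¹ := inv_anti₀ (hq.trans_le (le_max_right _ _)) (max_le hx hqQ)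
  have h2 : δ ≤ (2 * Q)⁻¹ := by
    rw [inv_eq_one_div, le_div_iff₀ (by linarith)]; linarith
  have h3 : (2 * Q)⁻¹ ≤ (max y q)⁻¹ := by
    have : Q⁻¹ = (2 * Q)⁻¹ + (2 * Q)⁻¹ := by field_simp; ring
    linarith [(abs_le.1 h).2]
  have h4 := (inv_le_inv₀ (by linarith) (hq.trans_le (le_max_right _ _))).1 h3
  exact (le_max_left _ _).trans h4

/-- doubling time, lower bound -/
theorem half_le_of_lip {x y q δ : ℝ} (hq : 0 < q) (hx : 2 * q ≤ x)
    (h : |(max x q)⁻¹ - (max y q)⁻¹| ≤ δ) (hδ : δ * x ≤ 1 / 2) : x / 2 ≤ y := by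
  by_contra hcon
  push Not at hcon
  rw [abs_sub_comm] at h
  have hx0 : 0 < x := by linarith
  have h1 : max x q = x := max_eq_left (by linarith)
  have h2 : (x / 2)⁻¹ ≤ (max y q)⁻¹ :=
    inv_anti₀ (hq.trans_le (le_max_right _ _)) (max_le hcon.le (by linarith))
  have h3 : δ ≤ (2 * x)⁻¹ := by
    rw [inv_eq_one_div, le_div_iff₀ (by linarith)]; linarith
  have h4 : (x / 2)⁻¹ = x⁻¹ + 2 * (2 * x)⁻¹ := by field_simp; ring
  have h5 : 0 < (2 * x)⁻¹ := by positivity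
  rw [h1] at h
  linarith [(abs_le.1 h).2]

/-- Gronwall with a primitive: `φ' ≤ k φ` gives `φ b ≤ exp (Λ b - Λ a) φ a` -/
theorem le_exp_mul {φ φ' Λ k : ℝ → ℝ} {a b : ℝ} (hab : a ≤ b) (hφ : ContinuousOn φ (Icc a b))
    (hΛ : ContinuousOn Λ (Icc a b))
    (h : ∀ t ∈ Ioo a b, HasDerivAt φ (φ' t) t ∧ HasDerivAt Λ (k t) t ∧ φ' t ≤ k t * φ t) :
    φ b ≤ Real.exp (Λ b - Λ a) * φ a := by
  have h1 := sub_le_of_deriv_le (ψ := fun t => Real.exp (-Λ t) * φ t) (L := fun _ => 0)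
    (ψ' := fun t => Real.exp (-Λ t) * (-k t) * φ t + Real.exp (-Λ t) * φ' t) (k := fun _ => 0) hab
    (hΛ.neg.rexp.mul hφ) continuousOn_const fun t ht =>
      ⟨(h t ht).2.1.neg.exp.mul (h t ht).1, hasDerivAt_const _ _, by
        have := mul_le_mul_of_nonneg_left (h t ht).2.2 (Real.exp_pos (-Λ t)).le
        linarith⟩
  have h2 : Real.exp (Λ b) * Real.exp (-Λ b) = 1 := by rw [← Real.exp_add]; simp
  have h3 := mul_le_mul_of_nonneg_left (sub_nonpos.1 (by simpa using h1))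
    (Real.exp_pos (Λ b)).le
  rw [← mul_assoc, h2, one_mul, ← mul_assoc, ← Real.exp_add] at h3
  rwa [sub_eq_add_neg]

theorem le_exp_mul' {φ φ' Λ k : ℝ → ℝ} {a b : ℝ} (hab : a ≤ b) (hφ : ContinuousOn φ (Icc a b))
    (hΛ : ContinuousOn Λ (Icc a b))
    (h : ∀ t ∈ Ioo a b, HasDerivAt φ (φ' t) t ∧ HasDerivAt Λ (k t) t ∧ -φ' t ≤ k t * φ t) :
    φ a ≤ Real.exp (Λ b - Λ a) * φ b := by
  have h1 := le_exp_mul (φ := fun t => -φ t) (φ' := fun t => -φ' t) (Λ := fun t => -Λ t)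
    (k := fun t => -k t) hab hφ.neg hΛ.neg fun t ht =>
      ⟨(h t ht).1.neg, (h t ht).2.1.neg, by linarith [(h t ht).2.2]⟩
  have h2 : Real.exp (Λ b - Λ a) * Real.exp (-Λ b - -Λ a) = 1 := by
    rw [← Real.exp_add]; simp
  have h3 := mul_le_mul_of_nonneg_left h1 (Real.exp_pos (Λ b - Λ a)).le
  rw [← mul_assoc, h2] at h3
  linarith

end Vale.Agent.P216BF
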