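import Vale.Agent.P216R.Met
import Vale.Agent.P216BF.Real

/-!
# P216BF: distortion of the metric in time under bounds on the Ricci curvature
-/

open scoped Manifold ContDiff Topology ENNReal
open Set Filter

set_option maxSynthPendingDepth 3
set_option linter.unusedSectionVars false

noncomputable section

namespace Vale.Agent.P216BF

open Vale.Agent.P216R

variable {E : Type} [NormedAddCommGroup E] [NormedSpace ℝ E] [FiniteDimensional ℝ E]
  {M : Type} [TopologicalSpace M] [ChartedSpace E M]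

/-- `Ric ≥ κ g` at `x` -/
def RicGe (g : Ten E M) (x : M) (κ : ℝ) : Prop := ∀ v, κ * g x v v ≤ Ric g x v v

/-- `Ric ≤ κ g` at `x` -/
def RicLe (g : Ten E M) (x : M) (κ : ℝ) : Prop := ∀ v, Ric g x v v ≤ κ * g x v v

variable {g : ℝ → Ten E M} {I : Set ℝ} {U : Set M} {x : M} {s t : ℝ}

theorem RicGe.mono {g : Ten E M} {κ κ' : ℝ} (h : RicGe g x κ) (hg : ∀ v, 0 ≤ g x v v)
    (hk : κ' ≤ κ) : RicGe g x κ' := fun v => (mul_le_mul_of_nonneg_right hk (hg v)).trans (h v)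

theorem RicLe.mono {g : Ten E M} {κ κ' : ℝ} (h : RicLe g x κ) (hg : ∀ v, 0 ≤ g x v v)
    (hk : κ ≤ κ') : RicLe g x κ' := fun v => (h v).trans (mul_le_mul_of_nonneg_right hk (hg v))

theorem rf_deriv (h : RF g I U) (ht : t ∈ I) (hx : x ∈ U) (v w : E) :
    HasDerivWithinAt (fun s => g s x v w) (-2 * Ric (g t) x v w) I t := by
  have h1 := ((h.eqn t ht x hx).clm_apply (hasDerivWithinAt_const t I v)).clm_apply
    (hasDerivWithinAt_const t I w)
  refine h1.congr_deriv ?_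
  simp

theorem rf_cont (h : RF g I U) (hx : x ∈ U) (v w : E) : ContinuousOn (fun s => g s x v w) I :=
  fun _ ht => (rf_deriv h ht hx v w).continuousWithinAt

theorem rf_derivAt (h : RF g I U) (hI : Icc s t ⊆ I) {τ : ℝ} (hτ : τ ∈ Ioo s t) (hx : x ∈ U)
    (v w : E) : HasDerivAt (fun s => g s x v w) (-2 * Ric (g τ) x v w) τ :=
  (rf_deriv h (hI (Ioo_subset_Icc_self hτ)) hx v w).hasDerivAt
    (mem_of_superset (Icc_mem_nhds hτ.1 hτ.2) hI)

/-- `Ric ≥ -k(τ) g` bounds the later metric from above -/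
theorem rf_le_of_ricGe' (h : RF g I U) (hx : x ∈ U) (hst : s ≤ t) (hI : Icc s t ⊆ I)
    {Λ k : ℝ → ℝ} (hΛ : ContinuousOn Λ (Icc s t))
    (hk : ∀ τ ∈ Ioo s t, HasDerivAt Λ (k τ) τ ∧ RicGe (g τ) x (-k τ)) (v : E) :
    g t x v v ≤ Real.exp (2 * (Λ t - Λ s)) * g s x v v := by
  have := le_exp_mul (φ := fun τ => g τ x v v) (φ' := fun τ => -2 * Ric (g τ) x v v)
    (Λ := fun τ => 2 * Λ τ) (k := fun τ => 2 * k τ) hst ((rf_cont h hx v v).mono hI)
    (continuousOn_const.mul hΛ) fun τ hτ =>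
      ⟨rf_derivAt h hI hτ hx v v, (hk τ hτ).1.const_mul 2, by linarith [(hk τ hτ).2 v]⟩
  rwa [← mul_sub] at this

/-- `Ric ≤ k(τ) g` bounds the earlier metric from above -/
theorem rf_le_of_ricLe' (h : RF g I U) (hx : x ∈ U) (hst : s ≤ t) (hI : Icc s t ⊆ I)
    {Λ k : ℝ → ℝ} (hΛ : ContinuousOn Λ (Icc s t))
    (hk : ∀ τ ∈ Ioo s t, HasDerivAt Λ (k τ) τ ∧ RicLe (g τ) x (k τ)) (v : E) :
    g s x v v ≤ Real.exp (2 * (Λ t - Λ s)) * g t x v v := by
  have := le_exp_mul' (φ := fun τ => g τ x v v) (φ' := fun τ => -2 * Ric (g τ) x v v)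
    (Λ := fun τ => 2 * Λ τ) (k := fun τ => 2 * k τ) hst ((rf_cont h hx v v).mono hI)
    (continuousOn_const.mul hΛ) fun τ hτ =>
      ⟨rf_derivAt h hI hτ hx v v, (hk τ hτ).1.const_mul 2, by linarith [(hk τ hτ).2 v]⟩
  rwa [← mul_sub] at this

theorem rf_le_of_ricGe (h : RF g I U) (hx : x ∈ U) (hst : s ≤ t) (hI : Icc s t ⊆ I) {K : ℝ}
    (hk : ∀ τ ∈ Ioo s t, RicGe (g τ) x (-K)) (v : E) :
    g t x v v ≤ Real.exp (2 * K * (t - s)) * g s x v v := by
  have := rf_le_of_ricGe' h hx hst hI (Λ := fun τ => K * τ) (k := fun _ => K) (by fun_prop)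
    (fun τ hτ => ⟨by simpa using (hasDerivAt_id τ).const_mul K, hk τ hτ⟩) v
  rwa [← mul_sub, ← mul_assoc] at this

theorem rf_le_of_ricLe (h : RF g I U) (hx : x ∈ U) (hst : s ≤ t) (hI : Icc s t ⊆ I) {K : ℝ}
    (hk : ∀ τ ∈ Ioo s t, RicLe (g τ) x K) (v : E) :
    g s x v v ≤ Real.exp (2 * K * (t - s)) * g t x v v := by
  have := rf_le_of_ricLe' h hx hst hI (Λ := fun τ => K * τ) (k := fun _ => K) (by fun_prop)
    (fun τ hτ => ⟨by simpa using (hasDerivAt_id τ).const_mul K, hk τ hτ⟩) v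
  rwa [← mul_sub, ← mul_assoc] at this

/-- with `Ric ≥ 0` the metric decreases -/
theorem rf_anti (h : RF g I U) (hx : x ∈ U) (hst : s ≤ t) (hI : Icc s t ⊆ I)
    (hk : ∀ τ ∈ Ioo s t, RicGe (g τ) x 0) (v : E) : g t x v v ≤ g s x v v := by
  simpa using rf_le_of_ricGe h hx hst hI (K := 0) (by simpa using hk) v

/-- two sided bound: any two times of an interval -/
theorem rf_equiv (h : RF g I U) (hx : x ∈ U) {a b K : ℝ} (hI : Icc a b ⊆ I)
    (hk : ∀ τ ∈ Ioo a b, RicGe (g τ) x (-K) ∧ RicLe (g τ) x K) (hs : s ∈ Icc a b)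
    (ht : t ∈ Icc a b) (v : E) : g t x v v ≤ Real.exp (2 * K * |t - s|) * g s x v v := by
  rcases le_total s t with hst | hst
  · rw [abs_of_nonneg (sub_nonneg.2 hst)]
    exact rf_le_of_ricGe h hx hst ((Icc_subset_Icc hs.1 ht.2).trans hI)
      (fun τ hτ => (hk τ ⟨hs.1.trans_lt hτ.1, hτ.2.trans_le ht.2⟩).1) v
  · rw [abs_sub_comm, abs_of_nonneg (sub_nonneg.2 hst)]
    exact rf_le_of_ricLe h hx hst ((Icc_subset_Icc ht.1 hs.2).trans hI)
      (fun τ hτ => (hk τ ⟨ht.1.trans_lt hτ.1, hτ.2.trans_le hs.2⟩).2) v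

/-- the same with a uniform constant on a time interval of length at most `T` -/
theorem rf_equiv' (h : RF g I U) (hx : x ∈ U) {a b K T : ℝ} (hI : Icc a b ⊆ I) (hK : 0 ≤ K)
    (hT : b - a ≤ T) (hk : ∀ τ ∈ Ioo a b, RicGe (g τ) x (-K) ∧ RicLe (g τ) x K)
    (hs : s ∈ Icc a b) (ht : t ∈ Icc a b) (v : E) :
    g t x v v ≤ Real.exp (K * T) ^ 2 * g s x v v := by
  refine (rf_equiv h hx hI hk hs ht v).trans (mul_le_mul_of_nonneg_right ?_
    ((h.toFam.met (hI hs)).nonneg hx v))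
  rw [← Real.exp_nat_mul]
  refine Real.exp_le_exp.2 ?_
  have : |t - s| ≤ T := abs_le.2 ⟨by linarith [hs.2, ht.1], by linarith [hs.1, ht.2]⟩
  push_cast
  nlinarith

end Vale.Agent.P216BF
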