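import Vale.Agent.P216BF.ONB
import Vale.Agent.P216BF.Time

/-!
# P216BF: pointwise algebra of the curvature tensor
-/

open scoped Manifold ContDiff Topology ENNReal
open Set Filter Module

set_option maxSynthPendingDepth 3
set_option linter.unusedSectionVars false

noncomputable section

namespace Vale.Agent.P216BF

open Vale.Agent.P216R Vale.Agent.P219.RG

variable {E : Type} [NormedAddCommGroup E] [NormedSpace ℝ E] [FiniteDimensional ℝ E]
  {M : Type} [TopologicalSpace M] [ChartedSpace E M] [IsManifold 𝓘(ℝ, E) ∞ M]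

/-- the curvature endomorphism at a point -/
def cB (g : Ten E M) (x : M) : E →L[ℝ] E →L[ℝ] E →L[ℝ] E := curvB (co g x) (pt E x)

/-- the curvature tensor at a point -/
def R4 (g : Ten E M) (x : M) (a b c d : E) : ℝ := g x (cB g x a b c) d

theorem finrank_E3 : finrank ℝ E3 = 3 := by simp

variable {g : Ten E M} {U : Set M} {x : M} {ι : Type} [Fintype ι] [DecidableEq ι] {e : ι → E}
  {a b c d v w : E} {κ C : ℝ}

theorem met_pd (hg : Met g U) (hx : x ∈ U) : PD (g x) := ⟨hg.symm x hx, hg.pos x hx⟩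

theorem cB_eq (hg : Met g U) (hx : x ∈ U) (a b c : E) :
    cB g x a b c = curv (co g x) (pt E x) a b c :=
  curvB_apply (hg.isMetricOn x) (pt_mem_dom hx) a b c

theorem rm0 (hg : Met g U) (hx : x ∈ U) (v : Fin 4 → E) :
    Rm g 0 x v = R4 g x (v 0) (v 1) (v 2) (v 3) := by
  rw [R4, cB_eq hg hx, Rm, rmG_zero, co_pt]

theorem secN_eq (hg : Met g U) (hx : x ∈ U) (v w : E) : secN g x v w = R4 g x v w w v := by
  rw [R4, cB_eq hg hx, secN]

theorem R4_skew (a b c d : E) : R4 g x a b c d = -R4 g x b a c d := by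
  simp [R4, cB, curvB]

theorem R4_skew' (hg : Met g U) (hx : x ∈ U) (a b c d : E) :
    R4 g x a b c d = -R4 g x a b d c := by
  have h := fun z => (hg.isMetricOn x).curv_skew (pt_mem_dom hx) a b z
  simp only [← cB_eq hg hx, co_pt] at h
  have h1 := h (c + d)
  simp only [map_add, add_apply, h c, h d] at h1
  simp only [R4]
  linarith

theorem R4_bianchi (hg : Met g U) (hx : x ∈ U) (a b c d : E) :
    R4 g x a b c d + R4 g x b c a d + R4 g x c a b d = 0 := by
  have h := hg.isMetricOn x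
  have hu := pt_mem_dom (E := E) hx
  have hs : ∀ v w z, fderiv ℝ (fun p => chris (co g x) p v w) (pt E x) z =
      fderiv ℝ (fun p => chris (co g x) p w v) (pt E x) z := fun v w z => by
    rw [EventuallyEq.fderiv_eq]
    filter_upwards [h.isOpen.mem_nhds hu] with p hp using h.chris_symm hp v w
  have : cB g x a b c + cB g x b c a + cB g x c a b = 0 := by
    simp only [cB_eq hg hx, curv]
    rw [hs c a, hs b a, hs c b, h.chris_symm hu c a, h.chris_symm hu b a, h.chris_symm hu c b]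
    abel
  simp only [R4, ← add_apply, ← map_add, this, map_zero, zero_apply]

theorem R4_pair (hg : Met g U) (hx : x ∈ U) (a b c d : E) : R4 g x a b c d = R4 g x c d a b := by
  have h1 := R4_bianchi hg hx a b c d
  have h2 := R4_bianchi hg hx b c d a
  have h3 := R4_bianchi hg hx c d a b
  have h4 := R4_bianchi hg hx d a b c
  rw [R4_skew' hg hx b c d a, R4_skew' hg hx c d b a, R4_skew' hg hx d b c a] at h2
  rw [R4_skew' hg hx d a c b, R4_skew a c d b, R4_skew' hg hx c a d b] at h3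
  rw [R4_skew' hg hx a b d c, R4_skew b d a c] at h4
  linarith

theorem R4_add1 : R4 g x (a + v) b c d = R4 g x a b c d + R4 g x v b c d := by simp [R4]
theorem R4_add2 : R4 g x a (b + v) c d = R4 g x a b c d + R4 g x a v c d := by simp [R4]
theorem R4_add3 : R4 g x a b (c + v) d = R4 g x a b c d + R4 g x a b v d := by simp [R4]
theorem R4_add4 : R4 g x a b c (d + v) = R4 g x a b c d + R4 g x a b c v := by simp [R4]
theorem R4_sub1 : R4 g x (a - v) b c d = R4 g x a b c d - R4 g x v b c d := by simp [R4]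
theorem R4_sub2 : R4 g x a (b - v) c d = R4 g x a b c d - R4 g x a v c d := by simp [R4]
theorem R4_sub3 : R4 g x a b (c - v) d = R4 g x a b c d - R4 g x a b v d := by simp [R4]
theorem R4_sub4 : R4 g x a b c (d - v) = R4 g x a b c d - R4 g x a b c v := by simp [R4]
theorem R4_smul1 (t : ℝ) : R4 g x (t • a) b c d = t * R4 g x a b c d := by simp [R4]
theorem R4_smul2 (t : ℝ) : R4 g x a (t • b) c d = t * R4 g x a b c d := by simp [R4]
theorem R4_smul3 (t : ℝ) : R4 g x a b (t • c) d = t * R4 g x a b c d := by simp [R4]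
theorem R4_smul4 (t : ℝ) : R4 g x a b c (t • d) = t * R4 g x a b c d := by simp [R4]

theorem R4_self (a c d : E) : R4 g x a a c d = 0 := by linarith [R4_skew (g := g) (x := x) a a c d]

theorem R4_self' (hg : Met g U) (hx : x ∈ U) (a b c : E) : R4 g x a b c c = 0 := by
  linarith [R4_skew' hg hx a b c c]

theorem secN_comm (hg : Met g U) (hx : x ∈ U) (v w : E) : secN g x v w = secN g x w v := by
  rw [secN_eq hg hx, secN_eq hg hx, R4_skew, R4_skew' hg hx, neg_neg]

theorem secN_self (hg : Met g U) (hx : x ∈ U) (v : E) : secN g x v v = 0 := by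
  rw [secN_eq hg hx, R4_self]

theorem secN_add_smul (hg : Met g U) (hx : x ∈ U) (v w : E) (t : ℝ) :
    secN g x (v + t • w) w = secN g x v w := by
  simp [secN_eq hg hx, R4_add1, R4_add4, R4_smul1, R4_smul4, R4_self, R4_self' hg hx]

theorem secN_smul (hg : Met g U) (hx : x ∈ U) (v w : E) (s t : ℝ) :
    secN g x (s • v) (t • w) = s ^ 2 * t ^ 2 * secN g x v w := by
  simp only [secN_eq hg hx, R4_smul1, R4_smul2, R4_smul3, R4_smul4]; ring

theorem secLe_of_pair (hg : Met g U) (hx : x ∈ U)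
    (h : ∀ v w, g x v v = 1 → g x w w = 1 → g x v w = 0 → secN g x v w ≤ κ) : SecLe g x κ :=
  (met_pd hg hx).of_pair (secN_add_smul hg hx) (secN_smul hg hx) h

theorem secGe_of_pair (hg : Met g U) (hx : x ∈ U)
    (h : ∀ v w, g x v v = 1 → g x w w = 1 → g x v w = 0 → κ ≤ secN g x v w) : SecGe g x κ :=
  fun v w => by
    have := (met_pd hg hx).of_pair (k := fun v w => -secN g x v w) (c := -κ)
      (fun v w t => by rw [secN_add_smul hg hx]) (fun v w s t => by rw [secN_smul hg hx]; ring)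
      (fun v w h1 h2 h3 => neg_le_neg (h v w h1 h2 h3)) v w
    linarith

theorem SecGe.pair (h : SecGe g x κ) (hv : g x v v = 1) (hw : g x w w = 1) (hvw : g x v w = 0) :
    κ ≤ secN g x v w := by simpa [hv, hw, hvw] using h v w

theorem SecLe.pair (h : SecLe g x κ) (hv : g x v v = 1) (hw : g x w w = 1) (hvw : g x v w = 0) :
    secN g x v w ≤ κ := by simpa [hv, hw, hvw] using h v w

theorem secGe_mono (hg : Met g U) (hx : x ∈ U) {κ' : ℝ} (h : SecGe g x κ) (hk : κ' ≤ κ) :
    SecGe g x κ' := fun v w =>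
  (mul_le_mul_of_nonneg_right hk (sub_nonneg.2 ((met_pd hg hx).cs v w))).trans (h v w)

theorem secLe_mono (hg : Met g U) (hx : x ∈ U) {κ' : ℝ} (h : SecLe g x κ) (hk : κ ≤ κ') :
    SecLe g x κ' := fun v w =>
  (h v w).trans (mul_le_mul_of_nonneg_right hk (sub_nonneg.2 ((met_pd hg hx).cs v w)))

theorem ric_eq (he : ONB (g x) e) (v w : E) : Ric g x v w = ∑ i, R4 g x (e i) v w (e i) := by
  rw [Ric, ricG_apply, he.trL]; rfl

theorem ric_symm (hg : Met g U) (hx : x ∈ U) (v w : E) : Ric g x v w = Ric g x w v := by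
  obtain ⟨e, he⟩ := (met_pd hg hx).exists_onb
  rw [ric_eq he, ric_eq he]
  exact Finset.sum_congr rfl fun i _ => by
    rw [R4_pair hg hx, R4_skew, R4_skew' hg hx, neg_neg]

theorem ric_self (hg : Met g U) (hx : x ∈ U) (he : ONB (g x) e) (v : E) :
    Ric g x v v = ∑ i, secN g x (e i) v := by simp only [ric_eq he, secN_eq hg hx]

theorem sc_eq (hg : Met g U) (hx : x ∈ U) (he : ONB (g x) e) :
    Sc g x = ∑ i, Ric g x (e i) (e i) := by
  rw [Sc, scG, co_pt, he.trB (met_pd hg hx)]; rfl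

theorem gram_sum (hg : Met g U) (hx : x ∈ U) (he : ONB (g x) e) (v : E) :
    ∑ i, (g x (e i) (e i) * g x v v - g x (e i) v ^ 2) = ((finrank ℝ E : ℝ) - 1) * g x v v := by
  simp only [he.self, one_mul, Finset.sum_sub_distrib, hg.symm x hx (e _) v,
    he.sq (met_pd hg hx), Finset.sum_const, Finset.card_univ, he.card, nsmul_eq_mul]
  ring

theorem ricGe_of_sec (hg : Met g U) (hx : x ∈ U) (h : SecGe g x κ) :
    RicGe g x (((finrank ℝ E : ℝ) - 1) * κ) := fun v => by
  obtain ⟨e, he⟩ := (met_pd hg hx).exists_onb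
  rw [ric_self hg hx he, mul_right_comm, ← gram_sum hg hx he, Finset.sum_mul]
  exact Finset.sum_le_sum fun i _ => (mul_comm _ _).trans_le (h _ _)

theorem ricLe_of_sec (hg : Met g U) (hx : x ∈ U) (h : SecLe g x κ) :
    RicLe g x (((finrank ℝ E : ℝ) - 1) * κ) := fun v => by
  obtain ⟨e, he⟩ := (met_pd hg hx).exists_onb
  rw [ric_self hg hx he, mul_right_comm, ← gram_sum hg hx he, Finset.sum_mul]
  exact Finset.sum_le_sum fun i _ => (h _ _).trans_eq (mul_comm _ _)

theorem sc_ge_of_ric (hg : Met g U) (hx : x ∈ U) (h : RicGe g x κ) :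
    finrank ℝ E * κ ≤ Sc g x := by
  obtain ⟨e, he⟩ := (met_pd hg hx).exists_onb
  rw [sc_eq hg hx he]
  refine le_trans (by simp) (Finset.sum_le_sum (f := fun _ => κ) fun i _ => ?_)
  simpa [he.self] using h (e i)

theorem sc_le_of_ric (hg : Met g U) (hx : x ∈ U) (h : RicLe g x κ) :
    Sc g x ≤ finrank ℝ E * κ := by
  obtain ⟨e, he⟩ := (met_pd hg hx).exists_onb
  rw [sc_eq hg hx he]
  refine le_trans (Finset.sum_le_sum (g := fun _ => κ) fun i _ => ?_) (by simp)
  simpa [he.self] using h (e i)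

/-- a lower Ricci bound and the scalar curvature give an upper Ricci bound -/
theorem ricLe_of_ricGe (hg : Met g U) (hx : x ∈ U) (h : RicGe g x (-κ)) :
    RicLe g x (Sc g x + ((finrank ℝ E : ℝ) - 1) * κ) := by
  refine (met_pd hg hx).of_unit fun u hu => ?_
  have hn : 0 < finrank ℝ E := finrank_pos_iff_exists_ne_zero.2 ⟨u, by rintro rfl; simp at hu⟩
  obtain ⟨e, he, h0⟩ := (met_pd hg hx).onb_unit (ι := Fin (finrank ℝ E)) (by simp) hu ⟨0, hn⟩
  have h1 := Finset.single_le_sum (f := fun i => Ric g x (e i) (e i) + κ) (s := Finset.univ)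
    (fun i _ => by have := h (e i); rw [he.self] at this; linarith) (Finset.mem_univ ⟨0, hn⟩)
  simp only [h0, Finset.sum_add_distrib, ← sc_eq hg hx he, Finset.sum_const, Finset.card_univ,
    Fintype.card_fin, nsmul_eq_mul] at h1
  linarith

theorem rmB_mono {k : ℕ} {C' : ℝ} (h : RmB g k x C) (hC : C ≤ C') : RmB g k x C' :=
  fun v hv => (h v hv).trans hC

theorem rmB_nonneg {k : ℕ} (h : RmB g k x C) : 0 ≤ C :=
  (abs_nonneg _).trans (h 0 fun _ => by simp)

theorem rmB_R4 (hg : Met g U) (hx : x ∈ U) (h : RmB g 0 x C) (ha : g x a a ≤ 1)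
    (hb : g x b b ≤ 1) (hc : g x c c ≤ 1) (hd : g x d d ≤ 1) : |R4 g x a b c d| ≤ C := by
  have := h ![a, b, c, d] fun i => by fin_cases i <;> assumption
  rwa [rm0 hg hx] at this

theorem secGe_of_rmB (hg : Met g U) (hx : x ∈ U) (h : RmB g 0 x C) : SecGe g x (-C) :=
  secGe_of_pair hg hx fun v w hv hw _ => by
    rw [secN_eq hg hx]; exact (abs_le.1 (rmB_R4 hg hx h hv.le hw.le hw.le hv.le)).1

theorem secLe_of_rmB (hg : Met g U) (hx : x ∈ U) (h : RmB g 0 x C) : SecLe g x C :=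
  secLe_of_pair hg hx fun v w hv hw _ => by
    rw [secN_eq hg hx]; exact (abs_le.1 (rmB_R4 hg hx h hv.le hw.le hw.le hv.le)).2

theorem abs_secN_le (hC : 0 ≤ C) (h1 : SecGe g x (-C))
    (h2 : SecLe g x C) (v w : E) : |secN g x v w| ≤ C * (g x v v * g x w w) := by
  have := mul_nonneg hC (sq_nonneg (g x v w))
  exact abs_le.2 ⟨by linarith [h1 v w], by linarith [h2 v w]⟩

theorem pol (hg : Met g U) (hx : x ∈ U) (a b c d : E) :
    secN g x (a + c) (b + d) - secN g x (a + c) (b - d) - secN g x (a - c) (b + d) +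
      secN g x (a - c) (b - d) = 8 * (R4 g x a b d c + R4 g x a d b c) := by
  have h1 : R4 g x c b d a = R4 g x a d b c := by
    rw [R4_pair hg hx, R4_skew, R4_skew' hg hx, neg_neg]
  have h2 : R4 g x c d b a = R4 g x a b d c := by
    rw [R4_pair hg hx, R4_skew, R4_skew' hg hx, neg_neg]
  simp only [secN_eq hg hx, R4_add1, R4_add2, R4_add3, R4_add4, R4_sub1, R4_sub2, R4_sub3,
    R4_sub4, h1, h2]
  ring

theorem pol_le (hg : Met g U) (hx : x ∈ U) (hC : 0 ≤ C) (h1 : SecGe g x (-C)) (h2 : SecLe g x C)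
    (ha : g x a a ≤ 1) (hb : g x b b ≤ 1) (hc : g x c c ≤ 1) (hd : g x d d ≤ 1) :
    |R4 g x a b d c + R4 g x a d b c| ≤ 2 * C := by
  have k := abs_secN_le hC h1 h2
  have p : ∀ v w : E, g x (v + w) (v + w) + g x (v - w) (v - w) = 2 * (g x v v + g x w w) :=
    fun v w => by simp only [map_add, map_sub, add_apply, sub_apply]; ring
  have n := (met_pd hg hx).nonneg
  have s : (g x (a + c) (a + c) + g x (a - c) (a - c)) *
      (g x (b + d) (b + d) + g x (b - d) (b - d)) ≤ 4 * 4 :=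
    mul_le_mul (by rw [p]; linarith) (by rw [p]; linarith) (add_nonneg (n _) (n _)) (by norm_num)
  have s' := mul_le_mul_of_nonneg_left s hC
  have q := pol hg hx a b c d
  have k1 := abs_le.1 (k (a + c) (b + d))
  have k2 := abs_le.1 (k (a + c) (b - d))
  have k3 := abs_le.1 (k (a - c) (b + d))
  have k4 := abs_le.1 (k (a - c) (b - d))
  exact abs_le.2 ⟨by linarith [k1.1, k2.2, k3.2, k4.1], by linarith [k1.2, k2.1, k3.1, k4.2]⟩

/-- two sided bounds on the sectional curvature bound the curvature tensor -/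
theorem rmB_of_sec (hg : Met g U) (hx : x ∈ U) (hC : 0 ≤ C) (h1 : SecGe g x (-C))
    (h2 : SecLe g x C) : RmB g 0 x (4 / 3 * C) := fun v hv => by
  have p1 := abs_le.1 (pol_le hg hx hC h1 h2 (hv 0) (hv 1) (hv 3) (hv 2))
  have p2 := abs_le.1 (pol_le hg hx hC h1 h2 (hv 1) (hv 0) (hv 3) (hv 2))
  have b := R4_bianchi hg hx (v 0) (v 1) (v 2) (v 3)
  rw [R4_skew (v 1) (v 0)] at p2
  rw [R4_skew (v 2) (v 0)] at b
  rw [rm0 hg hx]
  exact abs_le.2 ⟨by linarith [p1.1, p2.2], by linarith [p1.2, p2.1]⟩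

section Three

variable (h3 : finrank ℝ E = 3)
include h3

theorem cast3 : (finrank ℝ E : ℝ) - 1 = 2 := by rw [h3]; norm_num

theorem ricGe3 (hg : Met g U) (hx : x ∈ U) (h : SecGe g x κ) : RicGe g x (2 * κ) :=
  cast3 h3 ▸ ricGe_of_sec hg hx h

theorem ricLe3 (hg : Met g U) (hx : x ∈ U) (h : SecLe g x κ) : RicLe g x (2 * κ) :=
  cast3 h3 ▸ ricLe_of_sec hg hx h

theorem ric_of_rmB3 (hg : Met g U) (hx : x ∈ U) (h : RmB g 0 x C) :
    RicGe g x (-(2 * C)) ∧ RicLe g x (2 * C) :=
  ⟨by simpa using ricGe3 h3 hg hx (secGe_of_rmB hg hx h), ricLe3 h3 hg hx (secLe_of_rmB hg hx h)⟩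

theorem sc_ge3 (hg : Met g U) (hx : x ∈ U) (h : SecGe g x κ) : 6 * κ ≤ Sc g x := by
  have := sc_ge_of_ric hg hx (ricGe3 h3 hg hx h)
  rw [h3] at this; push_cast at this; linarith

theorem sc_le3 (hg : Met g U) (hx : x ∈ U) (h : SecLe g x κ) : Sc g x ≤ 6 * κ := by
  have := sc_le_of_ric hg hx (ricLe3 h3 hg hx h)
  rw [h3] at this; push_cast at this; linarith

theorem abs_sc_le3 (hg : Met g U) (hx : x ∈ U) (h : RmB g 0 x C) : |Sc g x| ≤ 6 * C :=
  abs_le.2 ⟨by linarith [sc_ge3 h3 hg hx (secGe_of_rmB hg hx h)],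
    sc_le3 h3 hg hx (secLe_of_rmB hg hx h)⟩

omit h3 in
theorem sc_frame3 (hg : Met g U) (hx : x ∈ U) {e : Fin 3 → E} (he : ONB (g x) e) :
    Sc g x = 2 * (secN g x (e 0) (e 1) + secN g x (e 0) (e 2) + secN g x (e 1) (e 2)) ∧
      Ric g x (e 0) (e 0) = secN g x (e 0) (e 1) + secN g x (e 0) (e 2) := by
  simp only [sc_eq hg hx he, ric_self hg hx he, Fin.sum_univ_three, secN_self hg hx,
    secN_comm hg hx (e 1) (e 0), secN_comm hg hx (e 2) (e 0), secN_comm hg hx (e 2) (e 1)]
  constructor <;> ring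

theorem secLe3 (hg : Met g U) (hx : x ∈ U) (h : SecGe g x (-κ)) :
    SecLe g x (Sc g x / 2 + 2 * κ) :=
  secLe_of_pair hg hx fun v w hv hw hvw => by
    obtain ⟨e, he, rfl, rfl⟩ := (met_pd hg hx).onb_pair (ι := Fin 3) (by simpa using h3) hv hw hvw
      (i := 0) (j := 1) (by decide)
    have h1 := SecGe.pair h (he.self 0) (he.self 2) (he.ne (by decide))
    have h2 := SecGe.pair h (he.self 1) (he.self 2) (he.ne (by decide))
    linarith [(sc_frame3 hg hx he).1]

theorem ricLe_sc3 (hg : Met g U) (hx : x ∈ U) (h : SecGe g x (-κ)) :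
    RicLe g x (Sc g x / 2 + κ) :=
  (met_pd hg hx).of_unit fun u hu => by
    obtain ⟨e, he, rfl⟩ := (met_pd hg hx).onb_unit (ι := Fin 3) (by simpa using h3) hu 0
    have h2 := SecGe.pair h (he.self 1) (he.self 2) (he.ne (by decide))
    linarith [(sc_frame3 hg hx he).1, (sc_frame3 hg hx he).2]

/-- in dimension three a lower sectional bound and an upper scalar bound control `Rm` -/
theorem rmB3 (hg : Met g U) (hx : x ∈ U) {R : ℝ} (hκ : 0 ≤ κ) (hR : 0 ≤ R) (h : SecGe g x (-κ))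
    (hs : Sc g x ≤ R) : RmB g 0 x (R + 3 * κ) :=
  rmB_mono (rmB_of_sec hg hx (C := R / 2 + 2 * κ) (by linarith)
    (secGe_mono hg hx h (by linarith)) (secLe_mono hg hx (secLe3 h3 hg hx h) (by linarith)))
    (by linarith)

theorem rmB3_nonneg (hg : Met g U) (hx : x ∈ U) (h : SecGe g x 0) : RmB g 0 x (Sc g x) := by
  simpa using rmB3 h3 hg hx le_rfl (by simpa using sc_ge3 h3 hg hx h) (by simpa using h) le_rfl

end Three

end Vale.Agent.P216BF
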