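import Vale.Agent.P216B.Top
import Vale.Agent.P216BF.Curv
import Vale.Agent.P216R.SF

/-!
# P216BF: comparison of balls of two metrics, balls at different times
-/

open scoped Manifold ContDiff Topology ENNReal
open Set Filter Module

set_option maxSynthPendingDepth 3
set_option linter.unusedSectionVars false

noncomputable section

namespace Vale.Agent.P216BF

open Vale.Agent.P216R

variable {E : Type} [NormedAddCommGroup E] [NormedSpace ℝ E]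
  {M : Type} [TopologicalSpace M] [ChartedSpace E M]

section Static

variable {g h : Ten E M} {U U' : Set M} {x y z : M} {r ρ C : ℝ}

theorem bl_sub_bl {a : ℝ} (hy : y ∈ cbl g U x a) (ha : 0 ≤ a) (hr : a + ρ ≤ r) :
    bl g U y ρ ⊆ bl g U x r := (bl_add ha hy).trans (bl_mono hr)

theorem bl_sub_bl' {a : ℝ} (hy : y ∈ bl g U x a) (hr : a + ρ ≤ r) : bl g U y ρ ⊆ bl g U x r :=
  bl_sub_bl (bl_subset_cbl hy) (pos_of_mem_bl hy).le hr

theorem dd_le_of_ed (hC : 0 ≤ C) {a b : M} (hf : ed g U a b ≠ ⊤)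
    (hle : ed h U' y z ≤ ENNReal.ofReal C * ed g U a b) : dd h U' y z ≤ C * dd g U a b := by
  have := ENNReal.toReal_mono (ENNReal.mul_ne_top ENNReal.ofReal_ne_top hf) hle
  rwa [ENNReal.toReal_mul, ENNReal.toReal_ofReal hC] at this

/-- forward comparison: `h ≤ C² g` is known on a ball of `g` -/
theorem ed_fwd (hC : 0 < C) {R : ℝ≥0∞} (hW : ∀ w, ed g U x w < R → w ∈ U')
    (hle : ∀ w, ed g U x w < R → ∀ v, h w v v ≤ C ^ 2 * g w v v)
    (hyz : ed g U x y + ed g U y z < R) : ed h U' y z ≤ ENNReal.ofReal C * ed g U y z :=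
  calc ed h U' y z ≤ ed h {w | ed g U x w < R} y z := ed_anti hW
    _ ≤ ENNReal.ofReal C * ed g {w | ed g U x w < R} y z := ed_le_mul hC hle y z
    _ ≤ _ := by
      gcongr
      exact ed_ball (r := R - ed g U x y)
        (fun w hw => (ed_triangle x y w).trans_lt (lt_tsub_iff_left.1 hw)) (lt_tsub_iff_left.2 hyz)

theorem ed_fwd' (hC : 0 < C) (hW : bl g U x r ⊆ U')
    (hle : ∀ w ∈ bl g U x r, ∀ v, h w v v ≤ C ^ 2 * g w v v) (hy : y ∈ bl g U x r) :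
    ed h U' x y ≤ ENNReal.ofReal C * ed g U x y :=
  ed_fwd hC hW hle (by rw [ed_self (mem_of_ed_ne (ne_top_of_lt hy)).1, zero_add]; exact hy)

theorem lt_of_le_mul (hC : 0 < C) {a b : ℝ≥0∞} (h1 : a ≤ ENNReal.ofReal C * b)
    (h2 : b < ENNReal.ofReal ρ) : a < ENNReal.ofReal (C * ρ) := by
  rw [ENNReal.ofReal_mul hC.le]
  exact h1.trans_lt (ENNReal.mul_lt_mul_right (by simpa using hC) ENNReal.ofReal_ne_top h2)

theorem bl_fwd (hC : 0 < C) (hW : bl g U x r ⊆ U')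
    (hle : ∀ w ∈ bl g U x r, ∀ v, h w v v ≤ C ^ 2 * g w v v) (hρ : ρ ≤ r) :
    bl g U x ρ ⊆ bl h U' x (C * ρ) := fun _ hy =>
  lt_of_le_mul hC (ed_fwd' hC hW hle (bl_mono hρ hy)) hy

/-- backward comparison: `g ≤ C² h` is known on a ball of `g` -/
theorem ed_bwd (hC : 0 < C) (ho : IsOpen (bl g U x r)) (hW : bl g U x r ⊆ U') (hU' : Hs U')
    (hc : Cpt g U x r) (hle : ∀ w ∈ bl g U x r, ∀ v, g w v v ≤ C ^ 2 * h w v v)
    (hyz : ed g U x y + ENNReal.ofReal C * ed h U' y z < ENNReal.ofReal r) :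
    ed g U y z ≤ ENNReal.ofReal C * ed h U' y z := by
  obtain ⟨r', h0, h1, h2⟩ := ENNReal.lt_iff_exists_real_btwn.1 hyz
  have hr : r' < r := (ENNReal.ofReal_lt_ofReal_iff_of_nonneg h0).1 h2
  have hC0 : ENNReal.ofReal C ≠ 0 := by simpa using hC
  have k : ∀ w, ed g U y w ≤ ENNReal.ofReal C * ed h (bl g U x r) y w := fun w =>
    (ed_anti bl_subset).trans (ed_le_mul hC hle y w)
  have hK := cbl_subset_bl (g := g) (U := U) (x := x) (h0.trans_lt hr) hr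
  have e : ∀ a : ℝ≥0∞, a < (ENNReal.ofReal r' - ed g U x y) / ENNReal.ofReal C ↔
      ed g U x y + ENNReal.ofReal C * a < ENNReal.ofReal r' := fun a => by
    rw [ENNReal.lt_div_iff_mul_lt (Or.inl hC0) (Or.inl ENNReal.ofReal_ne_top), lt_tsub_iff_left,
      mul_comm]
  have := hU'.ball_subset (g := h) (hc r' hr) ho hK (hK.trans hW)
    (show y ∈ bl g U x r from lt_of_le_of_lt le_self_add hyz)
    (fun w hw => ((ed_triangle x y w).trans (by gcongr; exact k w)).trans ((e _).1 hw).le)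
    ((e _).2 h1)
  exact (k z).trans (by gcongr; exact this.2)

theorem ed_bwd' (hC : 0 < C) (ho : IsOpen (bl g U x r)) (hW : bl g U x r ⊆ U') (hU' : Hs U')
    (hc : Cpt g U x r) (hle : ∀ w ∈ bl g U x r, ∀ v, g w v v ≤ C ^ 2 * h w v v) (hx : x ∈ U)
    (hρ : C * ρ ≤ r) (hy : y ∈ bl h U' x ρ) : ed g U x y ≤ ENNReal.ofReal C * ed h U' x y :=
  ed_bwd hC ho hW hU' hc hle (by
    rw [ed_self hx, zero_add]
    exact (lt_of_le_mul hC le_rfl hy).trans_le (ENNReal.ofReal_le_ofReal hρ))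

theorem bl_bwd (hC : 0 < C) (ho : IsOpen (bl g U x r)) (hW : bl g U x r ⊆ U') (hU' : Hs U')
    (hc : Cpt g U x r) (hle : ∀ w ∈ bl g U x r, ∀ v, g w v v ≤ C ^ 2 * h w v v) (hx : x ∈ U)
    (hρ : C * ρ ≤ r) : bl h U' x ρ ⊆ bl g U x (C * ρ) := fun _ hy =>
  lt_of_le_mul hC (ed_bwd' hC ho hW hU' hc hle hx hρ hy) hy

variable [FiniteDimensional ℝ E] [IsManifold 𝓘(ℝ, E) ∞ M]

/-- completeness up to a radius passes to a comparable metric -/
theorem cpt_bwd (hC : 0 < C) (ho : IsOpen (bl g U x r)) (hW : bl g U x r ⊆ U') (hU' : Hs U')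
    (hc : Cpt g U x r) (hle : ∀ w ∈ bl g U x r, ∀ v, g w v v ≤ C ^ 2 * h w v v) (hx : x ∈ U)
    (hh : Met h U') (h0 : 0 < ρ) (hρ : C * ρ ≤ r) : Cpt h U' x ρ := fun a ha => by
  obtain ⟨a', h1, h2⟩ := exists_between (max_lt ha h0)
  obtain ⟨h1, h4⟩ := max_lt_iff.1 h1
  have h3 : C * a' < r := (mul_lt_mul_of_pos_left h2 hC).trans_le hρ
  exact hh.isCompact_cbl (hc _ h3) ((cbl_subset_bl ((mul_pos hC h4).trans h3) h3).trans hW)
    ((cbl_subset_bl h4 h1).trans ((bl_bwd hC ho hW hU' hc hle hx h3.le).trans bl_subset_cbl))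

/-- completeness passes to a larger metric -/
theorem cpl_of_le (hC : 0 < C) (hc : Cpl g U) (hh : Met h U)
    (hle : ∀ w ∈ U, ∀ v, g w v v ≤ C ^ 2 * h w v v) : Cpl h U := fun x hx a =>
  hh.isCompact_cbl (hc x hx (C * a)) cbl_subset fun y hy => (ed_le_mul hC hle x y).trans (by
    rw [ENNReal.ofReal_mul hC.le]; gcongr; exact hy)

end Static

section Flow

variable [FiniteDimensional ℝ E] {g : ℝ → Ten E M} {I : Set ℝ} {U U' V : Set M} {x y z : M}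
  {a b s t r ρ K : ℝ}

/-- `|Ric| ≤ K` on `J × V` -/
def RicB (g : ℝ → Ten E M) (J : Set ℝ) (V : Set M) (K : ℝ) : Prop :=
  ∀ τ ∈ J, ∀ w ∈ V, RicGe (g τ) w (-K) ∧ RicLe (g τ) w K

theorem RicB.mono {J J' : Set ℝ} {V' : Set M} (h : RicB g J V K) (hJ : J' ⊆ J) (hV : V' ⊆ V) :
    RicB g J' V' K := fun τ hτ w hw => h τ (hJ hτ) w (hV hw)

theorem ricB_of_rmB [IsManifold 𝓘(ℝ, E) ∞ M] (h3 : finrank ℝ E = 3) (hf : Fam g I V)
    (h : ∀ τ ∈ I, ∀ w ∈ V, RmB (g τ) 0 w K) : RicB g I V (2 * K) := fun τ hτ w hw =>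
  ric_of_rmB3 h3 (hf.met hτ) hw (h τ hτ w hw)

theorem ricB_of_parB [IsManifold 𝓘(ℝ, E) ∞ M] (h3 : finrank ℝ E = 3) {τ : ℝ}
    (h : ParB g U x t r τ K) : RicB g (Icc (t - τ) t) (bl (g t) U x r) (2 * K) :=
  ricB_of_rmB h3 h.1.toFam h.2

theorem rf_sq (h : RF g (Icc a b) V) (hK : RicB g (Icc a b) V K) (hs : s ∈ Icc a b)
    (ht : t ∈ Icc a b) : ∀ w ∈ V, ∀ v, g s w v v ≤ Real.exp (K * |s - t|) ^ 2 * g t w v v :=
  fun w hw v => by
    have := rf_equiv h hw Subset.rfl (fun τ hτ => hK τ (Ioo_subset_Icc_self hτ) w hw) ht hs v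
    rwa [mul_assoc, show (2 : ℝ) = (2 : ℕ) by norm_num, Real.exp_nat_mul] at this

/-- distances at time `s` in any set containing the ball are bounded by those at time `t` -/
theorem rf_ed_fwd (h : RF g (Icc a b) V) (hK : RicB g (Icc a b) V K) (hs : s ∈ Icc a b)
    (ht : t ∈ Icc a b) (hV : bl (g t) U x r ⊆ V) (hW : bl (g t) U x r ⊆ U')
    (hyz : ed (g t) U x y + ed (g t) U y z < ENNReal.ofReal r) :
    ed (g s) U' y z ≤ ENNReal.ofReal (Real.exp (K * |s - t|)) * ed (g t) U y z :=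
  ed_fwd (Real.exp_pos _) hW (fun w hw => rf_sq h hK hs ht w (hV hw)) hyz

theorem rf_bl_fwd (h : RF g (Icc a b) V) (hK : RicB g (Icc a b) V K) (hs : s ∈ Icc a b)
    (ht : t ∈ Icc a b) (hV : bl (g t) U x r ⊆ V) (hW : bl (g t) U x r ⊆ U') (hρ : ρ ≤ r) :
    bl (g t) U x ρ ⊆ bl (g s) U' x (Real.exp (K * |s - t|) * ρ) :=
  bl_fwd (Real.exp_pos _) hW (fun w hw => rf_sq h hK hs ht w (hV hw)) hρ

theorem rf_ed_bwd (h : RF g (Icc a b) V) (hK : RicB g (Icc a b) V K) (hs : s ∈ Icc a b)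
    (ht : t ∈ Icc a b) (ho : IsOpen (bl (g t) U x r)) (hV : bl (g t) U x r ⊆ V)
    (hW : bl (g t) U x r ⊆ U') (hU' : Hs U') (hc : Cpt (g t) U x r)
    (hyz : ed (g t) U x y + ENNReal.ofReal (Real.exp (K * |t - s|)) * ed (g s) U' y z <
      ENNReal.ofReal r) :
    ed (g t) U y z ≤ ENNReal.ofReal (Real.exp (K * |t - s|)) * ed (g s) U' y z :=
  ed_bwd (Real.exp_pos _) ho hW hU' hc (fun w hw => rf_sq h hK ht hs w (hV hw)) hyz

theorem rf_bl_bwd (h : RF g (Icc a b) V) (hK : RicB g (Icc a b) V K) (hs : s ∈ Icc a b)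
    (ht : t ∈ Icc a b) (ho : IsOpen (bl (g t) U x r)) (hV : bl (g t) U x r ⊆ V)
    (hW : bl (g t) U x r ⊆ U') (hU' : Hs U') (hc : Cpt (g t) U x r) (hx : x ∈ U)
    (hρ : Real.exp (K * |t - s|) * ρ ≤ r) :
    bl (g s) U' x ρ ⊆ bl (g t) U x (Real.exp (K * |t - s|) * ρ) :=
  bl_bwd (Real.exp_pos _) ho hW hU' hc (fun w hw => rf_sq h hK ht hs w (hV hw)) hx hρ

/-- global comparison on a fixed manifold -/
theorem rf_ed_le (h : RF g (Icc a b) U) (hK : RicB g (Icc a b) U K) (hs : s ∈ Icc a b)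
    (ht : t ∈ Icc a b) (y z : M) :
    ed (g s) U y z ≤ ENNReal.ofReal (Real.exp (K * |s - t|)) * ed (g t) U y z :=
  ed_le_mul (Real.exp_pos _) (rf_sq h hK hs ht) y z

/-- with `Ric ≥ 0` distances decrease -/
theorem rf_ed_anti (h : RF g I U) (hst : s ≤ t) (hI : Icc s t ⊆ I)
    (hk : ∀ τ ∈ Ioo s t, ∀ w ∈ U, RicGe (g τ) w 0) (y z : M) : ed (g t) U y z ≤ ed (g s) U y z :=
  ed_mono (fun w hw => rf_anti h hw hst hI fun τ hτ => hk τ hτ w hw) y z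

theorem rf_bl_anti (h : RF g I U) (hst : s ≤ t) (hI : Icc s t ⊆ I)
    (hk : ∀ τ ∈ Ioo s t, ∀ w ∈ U, RicGe (g τ) w 0) : bl (g s) U x r ⊆ bl (g t) U x r :=
  fun y hy => lt_of_le_of_lt (rf_ed_anti h hst hI hk x y) hy

variable [IsManifold 𝓘(ℝ, E) ∞ M]

theorem rf_cpt (h : RF g (Icc a b) V) (hK : RicB g (Icc a b) V K) (hs : s ∈ Icc a b)
    (ht : t ∈ Icc a b) (ho : IsOpen (bl (g t) U x r)) (hV : bl (g t) U x r ⊆ V)
    (hW : bl (g t) U x r ⊆ U') (hU' : Hs U') (hc : Cpt (g t) U x r) (hx : x ∈ U)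
    (hh : Met (g s) U') (h0 : 0 < ρ) (hρ : Real.exp (K * |t - s|) * ρ ≤ r) : Cpt (g s) U' x ρ :=
  cpt_bwd (Real.exp_pos _) ho hW hU' hc (fun w hw => rf_sq h hK ht hs w (hV hw)) hx hh h0 hρ

theorem rf_cpl (h : RF g (Icc a b) U) (hK : RicB g (Icc a b) U K) (hs : s ∈ Icc a b)
    (ht : t ∈ Icc a b) (hc : Cpl (g t) U) : Cpl (g s) U :=
  cpl_of_le (Real.exp_pos _) hc (h.toFam.met hs) (rf_sq h hK ht hs)

/-- with `Ric ≥ 0` completeness persists backward in time -/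
theorem rf_cpl_back (h : RF g I U) (hst : s ≤ t) (hI : Icc s t ⊆ I)
    (hk : ∀ τ ∈ Ioo s t, ∀ w ∈ U, RicGe (g τ) w 0) (hc : Cpl (g t) U) : Cpl (g s) U :=
  cpl_of_le one_pos hc (h.toFam.met (hI ⟨le_rfl, hst⟩)) fun w hw v => by
    simpa using rf_anti h hw hst hI (fun τ hτ => hk τ hτ w hw) v

end Flow

end Vale.Agent.P216BF
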