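import Vale.Agent.P216R.Loc

/-!
# P216BF: orthonormal bases of a positive form, traces
-/

open scoped Manifold ContDiff Topology ENNReal
open Set Filter Module

set_option maxSynthPendingDepth 3
set_option linter.unusedSectionVars false

noncomputable section

namespace Vale.Agent.P216BF

open Vale.Agent.P216R

theorem onb_aux {V : Type} [AddCommGroup V] [Module ℝ V] [FiniteDimensional ℝ V]
    (A : V →ₗ[ℝ] V →ₗ[ℝ] ℝ) (hs : ∀ v w, A v w = A w v) (hp : ∀ v, v ≠ 0 → 0 < A v v)
    {ι : Type} [Fintype ι] [DecidableEq ι] (hc : finrank ℝ V = Fintype.card ι) (v : ι → V)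
    (s : Set ι) (hv : ∀ i ∈ s, ∀ j ∈ s, A (v i) (v j) = if i = j then 1 else 0) :
    ∃ b : Basis ι ℝ V, (∀ i j, A (b i) (b j) = if i = j then 1 else 0) ∧ ∀ i ∈ s, b i = v i := by
  let core : InnerProductSpace.Core ℝ V :=
    { inner := fun x y => A x y
      conj_inner_symm := fun x y => hs y x
      re_inner_nonneg := fun x => by
        by_cases h : x = 0
        · simp [h]
        · exact (hp x h).le
      add_left := fun x y z => by simp
      smul_left := fun x y r => by simp
      definite := fun x h => by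
        by_contra h'
        exact (hp x h').ne' h }
  let _ : NormedAddCommGroup V := core.toNormedAddCommGroup
  let _ : InnerProductSpace ℝ V := InnerProductSpace.ofCore core.toCore
  have h1 : Orthonormal ℝ (s.domRestrict v) := by
    rw [orthonormal_iff_ite]
    intro i j
    exact (hv i i.2 j j.2).trans (by simp [Subtype.ext_iff])
  obtain ⟨b, hb⟩ := h1.exists_orthonormalBasis_extension_of_card_eq hc
  exact ⟨b.toBasis, fun i j => orthonormal_iff_ite.1 b.orthonormal i j, hb⟩

variable {E : Type} [NormedAddCommGroup E] [NormedSpace ℝ E] [FiniteDimensional ℝ E]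

/-- a symmetric positive definite form -/
structure PD (A : Bil E) : Prop where
  symm : ∀ v w, A v w = A w v
  pos : ∀ v, v ≠ 0 → 0 < A v v

/-- an orthonormal family with as many elements as the dimension -/
structure ONB {ι : Type} [Fintype ι] [DecidableEq ι] (A : Bil E) (e : ι → E) : Prop where
  card : finrank ℝ E = Fintype.card ι
  on : ∀ i j, A (e i) (e j) = if i = j then 1 else 0

variable {A : Bil E} {ι : Type} [Fintype ι] [DecidableEq ι] {e : ι → E}

theorem PD.nonneg (h : PD A) (v : E) : 0 ≤ A v v := P219.RG.nonneg_of_pos h.pos v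

theorem PD.cs (h : PD A) (v w : E) : A v w ^ 2 ≤ A v v * A w w := by
  have := discrim_le_zero (a := A v v) (b := 2 * A v w) (c := A w w) fun t => by
    have := h.nonneg (t • v + w)
    simp only [map_add, map_smul, add_apply, smul_apply, smul_eq_mul, h.symm w v] at this
    linarith
  rw [discrim] at this
  linarith

theorem PD.abs_le (h : PD A) (v w : E) : |A v w| ≤ √(A v v) * √(A w w) := by
  rw [← Real.sqrt_mul (h.nonneg v)]
  exact Real.abs_le_sqrt (h.cs v w)

theorem PD.extend (h : PD A) (hc : finrank ℝ E = Fintype.card ι) (v : ι → E) (s : Set ι)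
    (hv : ∀ i ∈ s, ∀ j ∈ s, A (v i) (v j) = if i = j then 1 else 0) :
    ∃ e : ι → E, ONB A e ∧ ∀ i ∈ s, e i = v i := by
  obtain ⟨b, h1, h2⟩ := onb_aux (LinearMap.mk₂ ℝ (fun v w => A v w) (by simp) (by simp) (by simp)
    (by simp)) h.symm h.pos hc v s hv
  exact ⟨b, ⟨hc, h1⟩, h2⟩

theorem PD.exists_onb (h : PD A) : ∃ e : Fin (finrank ℝ E) → E, ONB A e :=
  (h.extend (by simp) 0 ∅ (by simp)).imp fun _ h => h.1

theorem PD.onb_unit (h : PD A) (hc : finrank ℝ E = Fintype.card ι) {v : E} (hv : A v v = 1)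
    (i : ι) : ∃ e : ι → E, ONB A e ∧ e i = v :=
  (h.extend hc (fun _ => v) {i} (by simp [hv])).imp fun _ h => ⟨h.1, h.2 i rfl⟩

theorem PD.onb_pair (h : PD A) (hc : finrank ℝ E = Fintype.card ι) {v w : E} (hv : A v v = 1)
    (hw : A w w = 1) (hvw : A v w = 0) {i j : ι} (hij : i ≠ j) :
    ∃ e : ι → E, ONB A e ∧ e i = v ∧ e j = w := by
  obtain ⟨e, h1, h2⟩ := h.extend hc (fun k => if k = i then v else w) {i, j} (by
    have := h.symm w v
    rintro a (rfl | rfl) b (rfl | rfl) <;> simp [*, hij.symm])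
  exact ⟨e, h1, by simpa using h2 i (by simp), by simpa [hij.symm] using h2 j (by simp)⟩

theorem ONB.self (h : ONB A e) (i : ι) : A (e i) (e i) = 1 := by simp [h.on]

theorem ONB.ne (h : ONB A e) {i j : ι} (hij : i ≠ j) : A (e i) (e j) = 0 := by simp [h.on, hij]

theorem ONB.sum_left (h : ONB A e) (c : ι → ℝ) (j : ι) : A (∑ i, c i • e i) (e j) = c j := by
  simp [map_sum, h.on]

theorem ONB.exists_basis (h : ONB A e) :
    ∃ b : Basis ι ℝ E, (∀ i, b i = e i) ∧ ∀ v i, b.repr v i = A v (e i) := by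
  have li : LinearIndependent ℝ e := Fintype.linearIndependent_iff.2 fun c hc j => by
    rw [← h.sum_left c j, hc]; simp
  have hb : ∃ b : Basis ι ℝ E, ∀ i, b i = e i :=
    ⟨.mk li (li.span_eq_top_of_card_eq_finrank' h.card.symm).ge, fun i => Basis.mk_apply _ _ i⟩
  obtain ⟨b, hb⟩ := hb
  refine ⟨b, hb, fun v i => ?_⟩
  conv_rhs => rw [← b.sum_repr v]
  simp only [hb]
  rw [h.sum_left]

theorem ONB.expand (h : ONB A e) (v : E) : v = ∑ i, A v (e i) • e i := by
  obtain ⟨b, h1, h2⟩ := h.exists_basis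
  conv_lhs => rw [← b.sum_repr v]
  simp only [h1, h2]

theorem ONB.apply (h : ONB A e) (B : Bil E) (v w : E) :
    B v w = ∑ i, A v (e i) * B (e i) w := by
  conv_lhs => rw [h.expand v]
  simp [map_sum]

theorem ONB.sq (h : ONB A e) (hA : PD A) (v : E) : ∑ i, A v (e i) ^ 2 = A v v := by
  rw [h.apply A v v]
  exact Finset.sum_congr rfl fun i _ => by rw [hA.symm (e i), pow_two]

theorem ONB.trL (h : ONB A e) (L : E →L[ℝ] E) : trL E L = ∑ i, A (L (e i)) (e i) := by
  obtain ⟨b, h1, h2⟩ := h.exists_basis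
  rw [trL_apply, LinearMap.trace_eq_matrix_trace ℝ b, Matrix.trace]
  exact Finset.sum_congr rfl fun i _ => by simp [LinearMap.toMatrix_apply, h1, h2]

theorem ONB.trB (h : ONB A e) (hA : PD A) (B : Bil E) : trB A B = ∑ i, B (e i) (e i) := by
  rw [show P216R.trB A B = P216R.trL E (A.inverse ∘L B) from rfl, h.trL]
  exact Finset.sum_congr rfl fun i _ => by
    rw [ContinuousLinearMap.comp_apply, (isInv hA.pos).self_apply_inverse]

/-- every non zero vector is a positive multiple of a unit vector -/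
theorem PD.exists_unit (h : PD A) {v : E} (hv : v ≠ 0) :
    ∃ u : E, A u u = 1 ∧ v = √(A v v) • u := by
  have h1 := Real.sqrt_pos.2 (h.pos v hv)
  refine ⟨(√(A v v))⁻¹ • v, ?_, by rw [smul_smul, mul_inv_cancel₀ h1.ne', one_smul]⟩
  have h2 := Real.mul_self_sqrt (h.nonneg v)
  simp only [map_smul, smul_apply, smul_eq_mul]
  field_simp
  linarith

/-- a quadratic inequality only has to be checked on unit vectors -/
theorem PD.of_unit (h : PD A) {B : Bil E} {c : ℝ} (hB : ∀ u, A u u = 1 → B u u ≤ c) (v : E) :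
    B v v ≤ c * A v v := by
  by_cases hv : v = 0
  · simp [hv]
  obtain ⟨u, h1, h2⟩ := h.exists_unit hv
  have h3 := Real.mul_self_sqrt (h.nonneg v)
  have h4 : B v v = A v v * B u u := by
    conv_lhs => rw [h2]
    simp only [map_smul, smul_apply, smul_eq_mul]
    rw [← mul_assoc, h3]
  rw [h4, mul_comm]
  exact mul_le_mul_of_nonneg_right (hB u h1) (h.nonneg v)

/-- every plane has an orthonormal basis -/
theorem PD.of_pair (h : PD A) {k : E → E → ℝ} {c : ℝ}
    (h1 : ∀ v w (t : ℝ), k (v + t • w) w = k v w)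
    (h2 : ∀ v w (s t : ℝ), k (s • v) (t • w) = s ^ 2 * t ^ 2 * k v w)
    (hk : ∀ v w, A v v = 1 → A w w = 1 → A v w = 0 → k v w ≤ c) (v w : E) :
    k v w ≤ c * (A v v * A w w - A v w ^ 2) := by
  by_cases hw : w = 0
  · subst hw
    have := h2 v 0 1 0
    simp only [smul_zero, one_smul, ne_eq, OfNat.ofNat_ne_zero, not_false_eq_true, zero_pow,
      mul_zero, zero_mul] at this
    rw [this]; simp
  obtain ⟨b, hb, t, rfl⟩ : ∃ b : E, A b b = 1 ∧ ∃ t : ℝ, w = t • b :=
    (h.exists_unit hw).imp fun b hb => ⟨hb.1, _, hb.2⟩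
  obtain ⟨u, s, rfl, hu⟩ : ∃ (u : E) (s : ℝ), v = u + s • b ∧ A u b = 0 :=
    ⟨v - A v b • b, A v b, by simp, by simp [hb]⟩
  have e1 : k (u + s • b) (t • b) = t ^ 2 * k u b := by
    have := h2 (u + s • b) b 1 t
    rw [one_smul, h1] at this
    rw [this]; ring
  have e2 : A (u + s • b) (u + s • b) * A (t • b) (t • b) - A (u + s • b) (t • b) ^ 2 =
      t ^ 2 * A u u := by
    simp only [map_add, map_smul, add_apply, smul_apply, smul_eq_mul, h.symm b u, hu, hb]
    ring
  rw [e1, e2, mul_left_comm]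
  refine mul_le_mul_of_nonneg_left ?_ (sq_nonneg t)
  by_cases hu0 : u = 0
  · subst hu0
    have := h2 0 b 0 1
    simp only [smul_zero, one_smul, ne_eq, OfNat.ofNat_ne_zero, not_false_eq_true, zero_pow,
      zero_mul] at this
    rw [this]; simp
  obtain ⟨a, ha, h3⟩ := h.exists_unit hu0
  have h4 := h2 a b (√(A u u)) 1
  rw [← h3, one_smul, Real.sq_sqrt (h.nonneg u)] at h4
  have h5 : A a b = 0 := by
    rw [h3, map_smul, smul_apply, smul_eq_mul] at hu
    exact (mul_eq_zero.1 hu).resolve_left (Real.sqrt_pos.2 (h.pos u hu0)).ne'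
  rw [h4, one_pow, mul_one, mul_comm]
  exact mul_le_mul_of_nonneg_right (hk a b ha hb h5) (h.nonneg u)

end Vale.Agent.P216BF
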