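import Vale.Agent.P216BF.Ball
import Vale.Agent.P216R.Nat

/-!
# P216BF: doubling time and doubling radius of the scalar curvature
-/

open scoped Manifold ContDiff Topology ENNReal
open Set Filter Module

set_option maxSynthPendingDepth 3
set_option linter.unusedSectionVars false

noncomputable section

namespace Vale.Agent.P216BF

open Vale.Agent.P216R

variable {E : Type} [NormedAddCommGroup E] [NormedSpace ℝ E] [FiniteDimensional ℝ E]
  {M : Type} [TopologicalSpace M] [ChartedSpace E M] [IsManifold 𝓘(ℝ, E) ∞ M]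

section Space

variable {g : Ten E M} {U W : Set M} {x y : M} {φ : M → ℝ} {r q Q C : ℝ}

theorem mdF_eq (hφ : MDifferentiableAt 𝓘(ℝ, E) 𝓘(ℝ, ℝ) φ x) :
    mdF E φ x = fderiv ℝ (rd E φ x) (pt E x) := by
  refine hφ.mfderiv.trans ?_
  simp [writtenInExtChartAt, rd, pt, chartAt_self_eq]
  rfl

theorem grad_spec (hg : Met g U) (hx : x ∈ U) (φ : M → ℝ) (v : E) :
    g x (grad g φ x) v = fderiv ℝ (rd E φ x) (pt E x) v := by
  rw [grad, P210.R2.H53.gradG, co_pt, app_inverse (hg.pos x hx)]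

theorem gam_eq (hg : Met g U) (hx : x ∈ U) (φ ψ : M → ℝ) :
    gam g φ ψ x = g x (grad g φ x) (grad g ψ x) := (grad_spec hg hx φ _).symm

theorem gam_nonneg (hg : Met g U) (hx : x ∈ U) (φ : M → ℝ) : 0 ≤ gam g φ φ x :=
  gam_eq hg hx φ φ ▸ hg.nonneg hx _

theorem abs_d_le (hg : Met g U) (hx : x ∈ U) (φ : M → ℝ) (v : E) :
    |fderiv ℝ (rd E φ x) (pt E x) v| ≤ √(gam g φ φ x) * √(g x v v) := by
  rw [← grad_spec hg hx, gam_eq hg hx]
  exact (met_pd hg hx).abs_le _ _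

theorem hasDerivAt_curve {γ : ℝ → M} {t : ℝ} (hφ : MDifferentiableAt 𝓘(ℝ, E) 𝓘(ℝ, ℝ) φ (γ t))
    (hγ : MDifferentiableAt 𝓘(ℝ, ℝ) 𝓘(ℝ, E) γ t) :
    HasDerivAt (φ ∘ γ) (fderiv ℝ (rd E φ (γ t)) (pt E (γ t)) (vel E γ t)) t := by
  have h5 := mfderiv_comp t hφ hγ
  rw [mfderiv_eq_fderiv] at h5
  have h6 := (mdifferentiableAt_iff_differentiableAt.1 (hφ.comp t hγ)).hasDerivAt
  rw [← mdF_eq hφ]
  exact h6.congr_deriv (congrArg (fun L : ℝ →L[ℝ] ℝ => L 1) h5)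

theorem sc_smooth (hg : Met g U) : ContMDiffOn 𝓘(ℝ, E) 𝓘(ℝ, ℝ) ∞ (Sc g) U := fun x hx => by
  have h := hg.isMetricOn x
  have h1 : ContDiffAt ℝ ∞ (P216R.scG (co g x)) (pt E x) :=
    ((ps_const (h.contDiffAt (pt_mem_dom hx)) univ (0 : ℝ)).scG (mem_univ _)
      (h.pos _ (pt_mem_dom hx))).contDiffAt (mem_univ _)
  refine ((ContMDiffAt.comp x (f := chartAt E x) h1.contMDiffAt
    (sm_chart (mem_chart_source E x))).congr_of_eventuallyEq ?_).contMDiffWithinAt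
  filter_upwards [hg.isOpen.mem_nhds hx,
    (chartAt E x).open_source.mem_nhds (mem_chart_source E x)] with y h1 h2
  exact hg.Sc_chart h1 h2

theorem trunc_len (hg : Met g W) (hφ : ContMDiffOn 𝓘(ℝ, E) 𝓘(ℝ, ℝ) 1 φ W) (hq : 0 < q)
    (hC : 0 ≤ C) (hd : ∀ z ∈ W, q < φ z → gam g φ φ z ≤ C ^ 2 * φ z ^ 3) {γ : ℝ → M} {a b : ℝ}
    (hγ : Crv E W γ a b) :
    ENNReal.ofReal ((√(max (φ (γ b)) q))⁻¹ - (√(max (φ (γ a)) q))⁻¹) ≤
      ENNReal.ofReal (C / 2) * len g γ a b := by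
  have hc : ContDiffOn ℝ 1 (φ ∘ γ) (Icc a b) :=
    contMDiffOn_iff_contDiffOn.1 (hφ.comp hγ.diff hγ.mem)
  have key : ∀ s ∈ Icc a b, (∀ t ∈ Ico a s, q < φ (γ t)) →
      ENNReal.ofReal ((√(max (φ (γ s)) q))⁻¹ - (√(max (φ (γ a)) q))⁻¹) ≤
        ENNReal.ofReal (C / 2) * len g γ a b := by
    intro s hs h
    rcases hs.1.eq_or_lt with rfl | has
    · simp
    have hsub : Icc a s ⊆ Icc a b := Icc_subset_Icc_right hs.2
    have h1 : ∀ t ∈ Icc a s, q ≤ φ (γ t) := by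
      rw [← closure_Ico has.ne]
      refine fun t ht => ContinuousWithinAt.closure_le ht continuousWithinAt_const ?_
        fun t ht => (h t ht).le
      rw [closure_Ico has.ne] at ht
      exact (hc.continuousOn t (hsub ht)).mono (Ico_subset_Icc_self.trans hsub)
    have h2 : ∀ t ∈ Icc a s, 0 < φ (γ t) := fun t ht => hq.trans_le (h1 t ht)
    have h3 := enorm_le_len (g := g) (γ := γ) (φ := fun t => (√((φ ∘ γ) t))⁻¹) (C := C / 2)
      (by linarith) has.le (((hc.mono hsub).sqrt fun t ht => (h2 t ht).ne').inv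
        fun t ht => (Real.sqrt_pos.2 (h2 t ht)).ne') fun t ht => by
      have ht' : t ∈ Ioo a b := ⟨ht.1, ht.2.trans_le hs.2⟩
      have hW := hγ.mem (Ioo_subset_Icc_self ht')
      have p := h2 t (Ioo_subset_Icc_self ht)
      have p' := Real.sqrt_pos.2 p
      have d := ((hasDerivAt_curve ((hφ.contMDiffAt (hg.isOpen.mem_nhds hW)).mdifferentiableAt
        one_ne_zero) (hγ.dat ht')).sqrt p.ne').inv p'.ne'
      have e := (abs_d_le hg hW φ (vel E γ t)).trans (mul_le_mul_of_nonneg_right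
        (Real.sqrt_le_sqrt (hd _ hW (h t ⟨ht.1.le, ht.2⟩))) (Real.sqrt_nonneg _))
      have e2 : √(C ^ 2 * φ (γ t) ^ 3) = C * √(φ (γ t)) ^ 3 := by
        rw [Real.sqrt_eq_iff_mul_self_eq (by positivity) (by positivity)]
        have := Real.sq_sqrt p.le
        generalize √(φ (γ t)) = w at this
        rw [← this]; ring
      rw [show deriv (fun t => (√((φ ∘ γ) t))⁻¹) t = _ from d.deriv, Real.norm_eq_abs, abs_div,
        abs_neg, abs_div, Function.comp_apply, abs_of_pos (by positivity : 0 < 2 * √(φ (γ t))),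
        abs_of_pos (pow_pos p' 2), div_div, div_le_iff₀ (by positivity)]
      refine e.trans_eq ?_
      rw [e2, spd]; ring
    rw [max_eq_left (h1 s ⟨has.le, le_rfl⟩), max_eq_left (h1 a ⟨le_rfl, has.le⟩)]
    refine le_trans ?_ (h3.trans (by gcongr; exact len_mono le_rfl hs.2))
    rw [← ofReal_norm]
    exact ENNReal.ofReal_le_ofReal (le_abs_self _)
  by_cases hZ : (Icc a b ∩ (φ ∘ γ) ⁻¹' Iic q).Nonempty
  · have hcl : IsClosed (Icc a b ∩ (φ ∘ γ) ⁻¹' Iic q) :=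
      hc.continuousOn.preimage_isClosed_of_isClosed isClosed_Icc isClosed_Iic
    have hb : BddBelow (Icc a b ∩ (φ ∘ γ) ⁻¹' Iic q) := ⟨a, fun t ht => ht.1.1⟩
    have hs := hcl.csInf_mem hZ hb
    refine le_trans (ENNReal.ofReal_le_ofReal (sub_le_sub_right ?_ _)) (key _ hs.1 fun t ht => ?_)
    · rw [max_eq_right (show φ (γ _) ≤ q from hs.2)]
      exact inv_anti₀ (Real.sqrt_pos.2 hq) (Real.sqrt_le_sqrt (le_max_right _ _))
    · by_contra hcon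
      exact absurd (csInf_le hb ⟨⟨ht.1, ht.2.le.trans hs.1.2⟩, not_lt.1 hcon⟩) (not_le.2 ht.2)
  · exact key b ⟨hγ.le, le_rfl⟩ fun t ht => by
      by_contra hcon
      exact hZ ⟨t, Ico_subset_Icc_self ht, not_lt.1 hcon⟩

theorem trunc_ed (hg : Met g W) (hφ : ContMDiffOn 𝓘(ℝ, E) 𝓘(ℝ, ℝ) 1 φ W) (hq : 0 < q)
    (hC : 0 < C) (hd : ∀ z ∈ W, q < φ z → gam g φ φ z ≤ C ^ 2 * φ z ^ 3) (x y : M) :
    ENNReal.ofReal ((√(max (φ y) q))⁻¹ - (√(max (φ x) q))⁻¹) ≤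
      ENNReal.ofReal (C / 2) * ed g W x y :=
  mul_ed ENNReal.ofReal_ne_top (fun h => absurd h (by simpa using hC)) fun _ h1 h2 h3 =>
    h2 ▸ h3 ▸ trunc_len hg hφ hq hC.le hd h1

/-- `|∇φ| ≤ C φ ^ (3/2)` above the level `q` on a ball makes `max φ q ^ (-1/2)` Lipschitz -/
theorem sqrt_max_lip (hg : Met g U) (hφ : ContMDiffOn 𝓘(ℝ, E) 𝓘(ℝ, ℝ) 1 φ (bl g U x r))
    (hq : 0 < q) (hC : 0 < C)
    (hd : ∀ z ∈ bl g U x r, q < φ z → gam g φ φ z ≤ C ^ 2 * φ z ^ 3) (hy : y ∈ bl g U x r) :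
    |(√(max (φ x) q))⁻¹ - (√(max (φ y) q))⁻¹| ≤ C / 2 * dd g U x y := by
  have hW := hg.mono (hg.isOpen_bl x r) bl_subset
  have e := ed_eq_of_bl Subset.rfl bl_subset hy
  have h1 := trunc_ed hW hφ hq hC hd x y
  have h2 := trunc_ed hW hφ hq hC hd y x
  rw [ed_comm] at h2
  rw [e, ← ofReal_dd (ne_top_of_lt hy), ← ENNReal.ofReal_mul (by linarith),
    ENNReal.ofReal_le_ofReal_iff (mul_nonneg (by linarith) dd_nonneg)] at h1 h2
  exact abs_le.2 ⟨by linarith, h2⟩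

theorem le_four_mul (hg : Met g U) (hφ : ContMDiffOn 𝓘(ℝ, E) 𝓘(ℝ, ℝ) 1 φ (bl g U x r))
    (hq : 0 < q) (hC : 0 < C)
    (hd : ∀ z ∈ bl g U x r, q < φ z → gam g φ φ z ≤ C ^ 2 * φ z ^ 3) (hy : y ∈ bl g U x r)
    (hQ : q ≤ Q) (hx : φ x ≤ Q) (hr : C * dd g U x y * √Q ≤ 1) : φ y ≤ 4 * Q := by
  have h := sqrt_max_lip hg hφ hq hC hd hy
  have e : ∀ s : ℝ, √(max s q) = max (√s) (√q) := fun s =>
    Monotone.map_max fun _ _ h => Real.sqrt_le_sqrt h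
  rw [e, e] at h
  have h1 := le_two_mul_of_lip (Real.sqrt_pos.2 hq) (Real.sqrt_le_sqrt hQ) (Real.sqrt_le_sqrt hx) h
    (by linarith)
  have h2 := Real.sq_sqrt (hq.le.trans hQ)
  rw [Real.sqrt_le_left (by positivity)] at h1
  linarith

theorem quarter_le (hg : Met g U) (hφ : ContMDiffOn 𝓘(ℝ, E) 𝓘(ℝ, ℝ) 1 φ (bl g U x r))
    (hq : 0 < q) (hC : 0 < C)
    (hd : ∀ z ∈ bl g U x r, q < φ z → gam g φ φ z ≤ C ^ 2 * φ z ^ 3) (hy : y ∈ bl g U x r)
    (hx : 4 * q ≤ φ x) (hr : C * dd g U x y * √(φ x) ≤ 1) : φ x / 4 ≤ φ y := by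
  have h := sqrt_max_lip hg hφ hq hC hd hy
  have e : ∀ s : ℝ, √(max s q) = max (√s) (√q) := fun s =>
    Monotone.map_max fun _ _ h => Real.sqrt_le_sqrt h
  rw [e, e] at h
  have h0 : 2 * √q ≤ √(φ x) := Real.le_sqrt_of_sq_le (by rw [mul_pow, Real.sq_sqrt hq.le]; linarith)
  have h1 := half_le_of_lip (Real.sqrt_pos.2 hq) h0 h (by linarith)
  have h2 := Real.sq_sqrt (show 0 ≤ φ x by linarith)
  have h3 := Real.sqrt_pos.2 hq
  rw [Real.le_sqrt' (by linarith)] at h1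
  linarith

end Space

section Time

variable {g : ℝ → Ten E M} {I : Set ℝ} {U : Set M} {x : M} {a b s t q Q C : ℝ}

theorem fam_ps (h : Fam g I U) (ht : t ∈ I) {y : M} {u : E} (hu : u ∈ dom E y U) :
    PS (fun s => co (g s) y) I t u := h.contDiffWithinAt (sm_symm hu.1) hu.2 ht

theorem sc_time (h : Fam g I U) (hx : x ∈ U) : ContDiffOn ℝ ∞ (fun s => Sc (g s) x) I :=
  fun t ht => ContDiffWithinAt.comp t (f := fun s => (s, pt E x))
    (g := fun p : ℝ × E => P216R.scG (co (g p.1) x) p.2)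
    ((fam_ps h ht (pt_mem_dom hx)).scG ht (((h.met ht).isMetricOn x).pos _ (pt_mem_dom hx)))
    (by fun_prop) fun _ hs => mk_mem_prod hs (mem_univ _)

theorem sc_cont (h : Fam g I U) : ContinuousOn (fun p : ℝ × M => Sc (g p.1) p.2) (I ×ˢ U) := by
  rintro ⟨t, x⟩ ⟨ht, hx⟩
  have h1 := ((fam_ps h ht (pt_mem_dom hx)).scG ht
    (((h.met ht).isMetricOn x).pos _ (pt_mem_dom hx))).continuousWithinAt
  have h2 : ContinuousWithinAt (fun p : ℝ × M => (p.1, chartAt E x p.2)) (I ×ˢ U) (t, x) :=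
    (continuousAt_fst.prodMk (ContinuousAt.comp (f := Prod.snd)
      ((chartAt E x).continuousAt (mem_chart_source E x)) continuousAt_snd)).continuousWithinAt
  refine (ContinuousWithinAt.comp (f := fun p : ℝ × M => (p.1, chartAt E x p.2)) h1 h2
    fun p hp => mk_mem_prod hp.1 (mem_univ _)).congr_of_eventuallyEq ?_ rfl
  filter_upwards [self_mem_nhdsWithin, mem_nhdsWithin_of_mem_nhds (continuousAt_snd.eventually
    ((chartAt E x).open_source.mem_nhds (mem_chart_source E x)))] with p h1 h2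
  exact (h.met h1.1).Sc_chart h1.2 h2

/-- `|R_t| ≤ C R²` above the level `q` makes `1 / max R q` Lipschitz in time -/
theorem sc_inv_lip (h : Fam g (Icc a b) U) (hx : x ∈ U) (hq : 0 < q) (hC : 0 ≤ C)
    (hd : ∀ τ ∈ Ioo a b, q < Sc (g τ) x →
      |deriv (fun s => Sc (g s) x) τ| ≤ C * Sc (g τ) x ^ 2) (hs : s ∈ Icc a b) (ht : t ∈ Icc a b) :
    |(max (Sc (g s) x) q)⁻¹ - (max (Sc (g t) x) q)⁻¹| ≤ C * |s - t| :=
  inv_max_lip (φ := fun s => Sc (g s) x) hq hC (sc_time h hx).continuousOn (fun τ hτ h1 =>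
    ⟨(((sc_time h hx).contDiffAt (Icc_mem_nhds hτ.1 hτ.2)).differentiableAt (by simp)).hasDerivAt,
      hd τ hτ h1⟩) hs ht

theorem sc_le_two_mul (h : Fam g (Icc a b) U) (hx : x ∈ U) (hq : 0 < q) (hC : 0 ≤ C)
    (hd : ∀ τ ∈ Ioo a b, q < Sc (g τ) x →
      |deriv (fun s => Sc (g s) x) τ| ≤ C * Sc (g τ) x ^ 2) (hs : s ∈ Icc a b) (ht : t ∈ Icc a b)
    (hQ : q ≤ Q) (h1 : Sc (g s) x ≤ Q) (h2 : C * |s - t| * Q ≤ 1 / 2) : Sc (g t) x ≤ 2 * Q :=
  le_two_mul_of_lip hq hQ h1 (sc_inv_lip h hx hq hC hd hs ht) h2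

theorem sc_half_le (h : Fam g (Icc a b) U) (hx : x ∈ U) (hq : 0 < q) (hC : 0 ≤ C)
    (hd : ∀ τ ∈ Ioo a b, q < Sc (g τ) x →
      |deriv (fun s => Sc (g s) x) τ| ≤ C * Sc (g τ) x ^ 2) (hs : s ∈ Icc a b) (ht : t ∈ Icc a b)
    (h1 : 2 * q ≤ Sc (g s) x) (h2 : C * |s - t| * Sc (g s) x ≤ 1 / 2) :
    Sc (g s) x / 2 ≤ Sc (g t) x :=
  half_le_of_lip hq h1 (sc_inv_lip h hx hq hC hd hs ht) h2

end Time

end Vale.Agent.P216BF
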