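import Vale.Agent.P216BF.Vol
import Vale.Agent.P216C.Plan

/-!
# P216BF: the block `VD`
-/

open Set

namespace Vale.Agent.P216BF

theorem vd : P216C.VD := fun _ _ _ _ _ _ _ _ _ _ _ _ _ _ hst h hK hU hA hm hφ hk =>
  rf_vol_le h hst hK.isLindelof hA (hA.trans hU) hm
    (fun u hu => (hφ u hu).continuousAt.continuousWithinAt) fun τ hτ =>
      ⟨hφ τ (Ioo_subset_Icc_self hτ), hk τ (Ioo_subset_Icc_self hτ)⟩

end Vale.Agent.P216BF
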