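import Vale.Agent.P216BF.Scal
import Vale.Agent.P216FI.Vol
import Vale.Agent.P216R.Flow
import Mathlib.LinearAlgebra.Matrix.Charpoly.Coeff
import Mathlib.Analysis.Calculus.Deriv.Polynomial

/-!
# P216BF: distortion of the volume along a Ricci flow
-/

open scoped Manifold ContDiff Topology ENNReal
open Set Filter Module MeasureTheory

set_option maxSynthPendingDepth 3
set_option linter.unusedSectionVars false

noncomputable section

namespace Vale.Agent.P216BF

open Vale.Agent.P216R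

theorem det_deriv {ι : Type} [Fintype ι] [DecidableEq ι] {m : ℝ → ι → ι → ℝ} {X : ι → ι → ℝ}
    {I : Set ℝ} {t : ℝ} (hm : HasDerivWithinAt m X I t) (h1 : Matrix.of (m t) = 1) :
    HasDerivWithinAt (fun s => (Matrix.of (m s)).det) (∑ i, X i i) I t := by
  have hD : Differentiable ℝ fun m : ι → ι → ℝ => (Matrix.of m).det := by
    simp only [Matrix.det_apply', Matrix.of_apply]; fun_prop
  refine ((hD (m t)).hasFDerivAt.comp_hasDerivWithinAt t hm).congr_deriv ?_
  have h2 : HasDerivAt (fun r : ℝ => m t + r • X) X 0 := by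
    simpa using ((hasDerivAt_id (0 : ℝ)).smul_const X).const_add (m t)
  have h3 := HasFDerivAt.comp_hasDerivAt_of_eq (0 : ℝ) (hD (m t)).hasFDerivAt h2 (by simp)
  obtain ⟨p, hp⟩ : ∃ p : Polynomial ℝ, ∀ r : ℝ, (Matrix.of (m t + r • X)).det =
      1 + (∑ i, X i i) * r + p.eval r * r ^ 2 := ⟨_, fun r => by
    rw [show Matrix.of (m t + r • X) = 1 + r • Matrix.of X by rw [← h1]; rfl,
      Matrix.det_one_add_smul]; rfl⟩
  have h4 := (((hasDerivAt_id (0 : ℝ)).const_mul (∑ i, X i i)).const_add 1).add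
    ((p.hasDerivAt 0).mul (hasDerivAt_pow 2 (0 : ℝ)))
  refine (h3.unique (h4.congr_of_eventuallyEq (.of_forall fun r => hp r))).trans (by simp)

variable {E : Type} [NormedAddCommGroup E] [NormedSpace ℝ E] [FiniteDimensional ℝ E]

theorem den_deriv {B : ℝ → Bil E} {B' : Bil E} {I : Set ℝ} {t : ℝ}
    (hB : HasDerivWithinAt B B' I t) (hp : PD (B t)) :
    HasDerivWithinAt (fun s => den (B s)) (trB (B t) B' / 2 * den (B t)) I t := by
  obtain ⟨e, he⟩ := hp.exists_onb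
  have h1 : Matrix.of (fun i j => B t (e i) (e j)) = 1 := by
    ext i j; simp [he.on, Matrix.one_apply]
  have h2 := (det_deriv (m := fun s i j => B s (e i) (e j)) (X := fun i j => B' (e i) (e j))
    (hasDerivWithinAt_pi.2 fun i => hasDerivWithinAt_pi.2 fun j => by
      simpa using (hB.clm_apply (hasDerivWithinAt_const t I (e i))).clm_apply
        (hasDerivWithinAt_const t I (e j))) h1).sqrt (by rw [h1]; simp)
  have h3 : ∀ s, √(Matrix.of fun i j => B s (e i) (e j)).det =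
      |(finBasis ℝ E).det e| * den (B s) := fun s => sqrt_det_gram _ _ _
  have h4 := h3 t
  rw [h1, Matrix.det_one, Real.sqrt_one] at h4
  simp only [h3, ← h4, ← he.trB hp] at h2
  have h5 : den (B t) * |(finBasis ℝ E).det e| = 1 := by linarith
  refine ((h2.const_mul (den (B t))).congr_deriv (by ring)).congr (fun s _ => ?_) ?_ <;>
    rw [← mul_assoc, h5, one_mul]

variable {M : Type} [TopologicalSpace M] [ChartedSpace E M] [IsManifold 𝓘(ℝ, E) ∞ M]
  {g : ℝ → Ten E M} {I : Set ℝ} {U K A : Set M} {x : M} {s t : ℝ}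

theorem rf_den (h : RF g I U) (ht : t ∈ I) (hx : x ∈ U) :
    HasDerivWithinAt (fun s => den (g s x)) (-Sc (g t) x * den (g t x)) I t :=
  (den_deriv (h.eqn t ht x hx) (met_pd (h.toFam.met ht) hx)).congr_deriv (by
    rw [trB_smul, ← Sc_eq]; ring)

theorem rf_den_le (h : RF g (Icc s t) U) (hx : x ∈ U) (hst : s ≤ t) {Λ k : ℝ → ℝ}
    (hΛ : ContinuousOn Λ (Icc s t))
    (hk : ∀ τ ∈ Ioo s t, HasDerivAt Λ (k τ) τ ∧ k τ ≤ Sc (g τ) x) :
    den (g t x) ≤ Real.exp (Λ s - Λ t) * den (g s x) := by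
  have := le_exp_mul (φ := fun τ => den (g τ x)) (φ' := fun τ => -Sc (g τ) x * den (g τ x))
    (Λ := fun τ => -Λ τ) (k := fun τ => -k τ) hst
    (fun τ hτ => (rf_den h hτ hx).continuousWithinAt) hΛ.neg fun τ hτ =>
      ⟨(rf_den h (Ioo_subset_Icc_self hτ) hx).hasDerivAt (Icc_mem_nhds hτ.1 hτ.2), (hk τ hτ).1.neg,
        mul_le_mul_of_nonneg_right (neg_le_neg (hk τ hτ).2) (den_nonneg _)⟩
  rwa [neg_sub_neg] at this

theorem rf_den_ge (h : RF g (Icc s t) U) (hx : x ∈ U) (hst : s ≤ t) {Λ k : ℝ → ℝ}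
    (hΛ : ContinuousOn Λ (Icc s t))
    (hk : ∀ τ ∈ Ioo s t, HasDerivAt Λ (k τ) τ ∧ Sc (g τ) x ≤ k τ) :
    den (g s x) ≤ Real.exp (Λ t - Λ s) * den (g t x) :=
  le_exp_mul' (φ := fun τ => den (g τ x)) (φ' := fun τ => -Sc (g τ) x * den (g τ x)) hst
    (fun τ hτ => (rf_den h hτ hx).continuousWithinAt) hΛ fun τ hτ =>
      ⟨(rf_den h (Ioo_subset_Icc_self hτ) hx).hasDerivAt (Icc_mem_nhds hτ.1 hτ.2), (hk τ hτ).1,
        by simpa using mul_le_mul_of_nonneg_right (hk τ hτ).2 (den_nonneg _)⟩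

variable [MeasurableSpace E] [BorelSpace E] [MeasurableSpace M] [BorelSpace M]

/-- comparison of volumes from a comparison of the densities -/
theorem vol_le_of_den {g h : Ten E M} {c : ℝ} (hc : 0 ≤ c) (hK : IsLindelof K) (hA : A ⊆ K)
    (hm : MeasurableSet A) (hle : ∀ x ∈ A, den (g x) ≤ c * den (h x)) :
    vol g A ≤ ENNReal.ofReal c * vol h A := by
  have := meas_le_of_loc (μ := (vol g).restrict A) (ν := ENNReal.ofReal c • (vol h).restrict A) hK
    (fun a _ => ⟨_, (chartAt E a).open_source, mem_chart_source E a, fun S hS hSm => by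
      have h1 : S ∩ A ⊆ (chartAt E a).source := inter_subset_left.trans hS
      rw [Measure.smul_apply, Measure.restrict_apply hSm, Measure.restrict_apply hSm,
        vol_chart g (hSm.inter hm) h1, vol_chart h (hSm.inter hm) h1, smul_eq_mul,
        ← lintegral_const_mul' _ _ ENNReal.ofReal_ne_top]
      refine setLIntegral_mono' (meas_chart_image (hSm.inter hm) h1) ?_
      rintro _ ⟨y, hy, rfl⟩
      rw [← ENNReal.ofReal_mul hc, dens_eq, dens_eq, co, co, P216R.comap, P216R.comap, den_comp, den_comp,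
        (chartAt E a).left_inv (h1 hy), mul_left_comm]
      exact ENNReal.ofReal_le_ofReal (mul_le_mul_of_nonneg_left (hle y hy.2) (abs_nonneg _))⟩) hm hA
  simpa [Measure.restrict_apply hm] using this

/-- a lower bound for the scalar curvature bounds the later volume -/
theorem rf_vol_le (h : RF g (Icc s t) U) (hst : s ≤ t) (hK : IsLindelof K) (hA : A ⊆ K)
    (hU : A ⊆ U) (hm : MeasurableSet A) {Λ k : ℝ → ℝ} (hΛ : ContinuousOn Λ (Icc s t))
    (hk : ∀ τ ∈ Ioo s t, HasDerivAt Λ (k τ) τ ∧ ∀ x ∈ A, k τ ≤ Sc (g τ) x) :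
    vol (g t) A ≤ ENNReal.ofReal (Real.exp (Λ s - Λ t)) * vol (g s) A :=
  vol_le_of_den (Real.exp_pos _).le hK hA hm fun x hx =>
    rf_den_le h (hU hx) hst hΛ fun τ hτ => ⟨(hk τ hτ).1, (hk τ hτ).2 x hx⟩

/-- an upper bound for the scalar curvature bounds the earlier volume -/
theorem rf_vol_ge (h : RF g (Icc s t) U) (hst : s ≤ t) (hK : IsLindelof K) (hA : A ⊆ K)
    (hU : A ⊆ U) (hm : MeasurableSet A) {Λ k : ℝ → ℝ} (hΛ : ContinuousOn Λ (Icc s t))
    (hk : ∀ τ ∈ Ioo s t, HasDerivAt Λ (k τ) τ ∧ ∀ x ∈ A, Sc (g τ) x ≤ k τ) :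
    vol (g s) A ≤ ENNReal.ofReal (Real.exp (Λ t - Λ s)) * vol (g t) A :=
  vol_le_of_den (Real.exp_pos _).le hK hA hm fun x hx =>
    rf_den_ge h (hU hx) hst hΛ fun τ hτ => ⟨(hk τ hτ).1, (hk τ hτ).2 x hx⟩

theorem rf_vol_le_const (h : RF g (Icc s t) U) (hst : s ≤ t) (hK : IsLindelof K) (hA : A ⊆ K)
    (hU : A ⊆ U) (hm : MeasurableSet A) {C : ℝ} (hk : ∀ τ ∈ Ioo s t, ∀ x ∈ A, -C ≤ Sc (g τ) x) :
    vol (g t) A ≤ ENNReal.ofReal (Real.exp (C * (t - s))) * vol (g s) A := by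
  have := rf_vol_le h hst hK hA hU hm (Λ := fun τ => -C * τ) (k := fun _ => -C) (by fun_prop)
    fun τ hτ => ⟨by simpa using (hasDerivAt_id τ).const_mul (-C), hk τ hτ⟩
  rwa [show -C * s - -C * t = C * (t - s) by ring] at this

theorem rf_vol_ge_const (h : RF g (Icc s t) U) (hst : s ≤ t) (hK : IsLindelof K) (hA : A ⊆ K)
    (hU : A ⊆ U) (hm : MeasurableSet A) {C : ℝ} (hk : ∀ τ ∈ Ioo s t, ∀ x ∈ A, Sc (g τ) x ≤ C) :
    vol (g s) A ≤ ENNReal.ofReal (Real.exp (C * (t - s))) * vol (g t) A := by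
  have := rf_vol_ge h hst hK hA hU hm (Λ := fun τ => C * τ) (k := fun _ => C) (by fun_prop)
    fun τ hτ => ⟨by simpa using (hasDerivAt_id τ).const_mul C, hk τ hτ⟩
  rwa [← mul_sub] at this

/-- with `R ≥ 0` volumes decrease -/
theorem rf_vol_anti (h : RF g (Icc s t) U) (hst : s ≤ t) (hK : IsLindelof K) (hA : A ⊆ K)
    (hU : A ⊆ U) (hm : MeasurableSet A) (hk : ∀ τ ∈ Ioo s t, ∀ x ∈ A, 0 ≤ Sc (g τ) x) :
    vol (g t) A ≤ vol (g s) A := by
  simpa using rf_vol_le_const h hst hK hA hU hm (C := 0) (by simpa using hk)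

end Vale.Agent.P216BF
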